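import Vale.Agent.P367.Lim.Model5
import Vale.Agent.P367.Fin.TailMain

namespace Vale.Agent.P367.Lim

open Finset MeasureTheory ProbabilityTheory Filter Topology Vale.Agent.P367.Gap

/-- tightness of the aligned field law, at radius 12 -/
theorem tight_alf12 (p n : ℕ) (hn : 1 ≤ n) (γ β : Fin p → ℝ) :
    1 / 2 ≤ (alf n p γ β).real (Set.Icc (-12) 12) := by
  have hnr : (0 : ℝ) < n := by exact_mod_cast hn
  have hset : (Set.Icc (-12) 12 : Set ℝ) = {x | |x| ≤ 12} := by
    ext x; simp [abs_le]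
  rw [hset]
  have hmS : MeasurableSet {x : ℝ | |x| ≤ 12} := measurableSet_le measurable_norm measurable_const
  have hw : ∀ s, Continuous fun J : Pair n → ℝ => ‖qaoaState J p γ β s‖ ^ 2 :=
    fun s => (continuous_state p γ β s).norm.pow 2
  have hmt : ∀ (i : Fin n) (s : Conf n), Measurable (tt (uvec i) s) := fun i s => measurable_tt _ _
  have iT : ∀ (i : Fin n) (s : Conf n), Integrable (fun J : Pair n → ℝ => tt (uvec i) s J)
      (gLaw (Pair n)) := by
    intro i s
    have h2 : (fun J : Pair n → ℝ => tt (uvec i) s J) = fun J => ∑ e, uvec i s e * J e := by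
      funext J; rfl
    rw [h2]
    apply integrable_finsetSum
    intro e _
    apply Integrable.const_mul
    exact integrable_comp_eval (μ := fun _ : Pair n => gaussianReal 0 1) (i := e) (f := fun x => x)
      ((memLp_id_gaussianReal 1).integrable le_rfl)
  have iA : ∀ (i : Fin n) (s : Conf n), Integrable
      (fun J : Pair n → ℝ => ‖qaoaState J p γ β s‖ ^ 2 * |tt (uvec i) s J|) (gLaw (Pair n)) := by
    intro i s
    refine (iT i s).abs.bdd_mul (c := 1) (hw s).aestronglyMeasurable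
      (Eventually.of_forall fun J => ?_)
    rw [Real.norm_eq_abs, abs_of_nonneg (by positivity)]
    exact state_sq_le J p γ β s
  have iI : ∀ (i : Fin n) (s : Conf n), Integrable
      (fun J : Pair n → ℝ => ‖qaoaState J p γ β s‖ ^ 2
        * {x : ℝ | |x| ≤ 12}.indicator (fun _ => (1 : ℝ)) (tt (uvec i) s J)) (gLaw (Pair n)) := by
    intro i s
    refine (integrable_const (1 : ℝ)).mono' ?_ (Eventually.of_forall fun J => ?_)
    · exact ((hw s).measurable.mul ((measurable_const.indicator hmS).comp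
        (hmt i s))).aestronglyMeasurable
    · rw [norm_mul, Real.norm_eq_abs, abs_of_nonneg (by positivity)]
      have h1 := state_sq_le J p γ β s
      have h2 : ‖{x : ℝ | |x| ≤ 12}.indicator (fun _ => (1 : ℝ)) (tt (uvec i) s J)‖ ≤ 1 := by
        refine (norm_indicator_le_norm_self _ _).trans ?_
        simp
      calc _ ≤ 1 * 1 := mul_le_mul h1 h2 (norm_nonneg _) (by norm_num)
        _ = 1 := one_mul 1
  rw [real_alf p γ β _ hmS]
  have hfm := first_moment p γ β (fun s => measurable_qaoaState p γ β s)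
    (fun J : Pair n → ℝ => norm_qaoaState J p γ β)
  have hi : ∀ i : Fin n, 1 - (1 / 12) * ∫ J : Pair n → ℝ,
      ∑ s, ‖qaoaState J p γ β s‖ ^ 2 * |tt (uvec i) s J| ∂(gLaw (Pair n))
      ≤ ∫ J : Pair n → ℝ, (∑ s, (‖qaoaState J p γ β s‖ ^ 2)
        * {x : ℝ | |x| ≤ 12}.indicator (fun _ => (1 : ℝ)) (tt (uvec i) s J)) ∂(couplingLaw n) := by
    intro i
    have e1 : 1 - (1 / 12) * ∫ J : Pair n → ℝ,
        ∑ s, ‖qaoaState J p γ β s‖ ^ 2 * |tt (uvec i) s J| ∂(gLaw (Pair n))
        = ∫ J : Pair n → ℝ, (1 - (1 / 12) * ∑ s, ‖qaoaState J p γ β s‖ ^ 2 * |tt (uvec i) s J|)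
          ∂(gLaw (Pair n)) := by
      rw [integral_sub (integrable_const _)
        ((integrable_finsetSum _ fun s _ => iA i s).const_mul _), integral_const_mul]
      simp
    rw [e1]
    apply integral_mono ((integrable_const _).sub
      ((integrable_finsetSum _ fun s _ => iA i s).const_mul _))
      (integrable_finsetSum _ fun s _ => iI i s)
    intro J
    simp only [Pi.sub_apply]
    have h1 : (1 : ℝ) - (1 / 12) * ∑ s, ‖qaoaState J p γ β s‖ ^ 2 * |tt (uvec i) s J|
        = ∑ s, ‖qaoaState J p γ β s‖ ^ 2 * (1 - (1 / 12) * |tt (uvec i) s J|) := by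
      rw [← norm_qaoaState J p γ β, Finset.mul_sum, ← Finset.sum_sub_distrib]
      apply Finset.sum_congr rfl
      intro s _
      rw [norm_qaoaState]
      ring
    rw [h1]
    apply Finset.sum_le_sum
    intro s _
    apply mul_le_mul_of_nonneg_left _ (by positivity)
    by_cases h : |tt (uvec i) s J| ≤ 12
    · rw [Set.indicator_of_mem (by exact h)]
      have := abs_nonneg (tt (uvec i) s J)
      linarith
    · rw [Set.indicator_of_notMem (by exact h)]
      push Not at h
      linarith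
  have hs := Finset.sum_le_sum (s := (univ : Finset (Fin n))) fun i _ => hi i
  have h1 : ∑ i : Fin n, (1 - (1 / 12) * ∫ J : Pair n → ℝ,
      ∑ s, ‖qaoaState J p γ β s‖ ^ 2 * |tt (uvec i) s J| ∂(gLaw (Pair n)))
      = n - (1 / 12) * ∑ i : Fin n, ∫ J : Pair n → ℝ,
      ∑ s, ‖qaoaState J p γ β s‖ ^ 2 * |tt (uvec i) s J| ∂(gLaw (Pair n)) := by
    rw [Finset.sum_sub_distrib, ← Finset.mul_sum]
    simp
  rw [h1] at hs
  rw [inv_mul_eq_div, le_div_iff₀ hnr]
  linarith

/-- explicit misalignment bound at fixed depth -/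
theorem misalign_explicit (p : ℕ) (γ β : Fin p → ℝ) :
    ∀ᶠ n : ℕ in atTop, Real.exp (-(9000 * ((4 : ℝ) ^ (p + 1) + 1) ^ 2))
      ≤ (alf n p γ β).real (Set.Iio (-1)) := by
  have hcard : Fintype.card (CP p) = 4 ^ (p + 1) := by
    rw [Fintype.card_prod, Fintype.card_fun, Fintype.card_bool, Fintype.card_fin, ← mul_pow]
    norm_num
  set e : Fin (4 ^ (p + 1)) ≃ CP p := (Fintype.equivFinOfCardEq hcard).symm with he
  have hpr : ∀ m : ℕ, IsProbabilityMeasure (alf (m + 1) p γ β) :=
    fun m => isProb_alf p γ β (Nat.succ_pos m)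
  have h := Vale.Agent.P367.Fin.tail_lower (4 ^ (p + 1)) (fun m => alf (m + 1) p γ β)
    (Eventually.of_forall fun m => tight_alf12 p (m + 1) (by omega) γ β)
    (fun k => cx (extA γ) (extA β) p (e k)) (fun k => mx (extA γ) (extA β) p (e k))
    (by
      intro k
      have h1 := norm_cx_le (extA γ) (extA β) p (e k) (-(mx (extA γ) (extA β) p (e k)).re)
      refine le_trans (le_of_eq ?_) h1
      congr 2
      ring)
    (by
      intro ξ
      have h1 := tendsto_char_alf p γ β ξ
      have h2 : (∑ x : CP p, cx (extA γ) (extA β) p x *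
          Complex.exp (-(ξ * mx (extA γ) (extA β) p x) - (ξ : ℂ) ^ 2 / 2))
          = Complex.exp (-(ξ : ℂ) ^ 2 / 2) * ∑ k, cx (extA γ) (extA β) p (e k)
            * Complex.exp (-(ξ * mx (extA γ) (extA β) p (e k))) := by
        rw [← e.sum_comp, Finset.mul_sum]
        apply Finset.sum_congr rfl
        intro k _
        rw [mul_left_comm, ← Complex.exp_add]
        congr 2
        ring
      rw [h2] at h1
      exact h1)
  push_cast at h
  rw [eventually_atTop] at h ⊢
  obtain ⟨M, hM⟩ := h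
  refine ⟨M + 1, fun n hn => ?_⟩
  obtain ⟨m, rfl⟩ : ∃ m, n = m + 1 := ⟨n - 1, by omega⟩
  exact hM m (by omega)

/-- **Explicit uniform gap at fixed depth**, all angles. -/
theorem gap_explicit (p : ℕ) (γ β : Fin p → ℝ) : ∀ᶠ n : ℕ in atTop,
    qaoaValue n p γ β ≤ groundValue n - Real.exp (-(10 ^ 6 * 16 ^ p)) := by
  filter_upwards [misalign_explicit p γ β, eventually_gt_atTop 0] with n hn hn0
  have h := gap_of_alf p n hn0 γ β _ (Real.exp_pos _).le hn
  refine h.trans ?_
  have h1 : Real.exp (-(10 ^ 6 * 16 ^ p))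
      ≤ Real.exp (-(9000 * ((4 : ℝ) ^ (p + 1) + 1) ^ 2)) ^ 2 / 4 := by
    rw [le_div_iff₀ (by norm_num), ← Real.exp_nat_mul]
    have h4 : (4 : ℝ) ≤ Real.exp 2 := by
      have := Real.exp_one_gt_d9
      have h5 : Real.exp 2 = Real.exp 1 * Real.exp 1 := by rw [← Real.exp_add]; norm_num
      rw [h5]
      nlinarith
    have h16 : (16 : ℝ) ^ p = (4 ^ p) ^ 2 := by
      rw [← pow_mul, mul_comm, pow_mul]; norm_num
    have hq : (1 : ℝ) ≤ 4 ^ p := one_le_pow₀ (by norm_num)
    calc Real.exp (-(10 ^ 6 * 16 ^ p)) * 4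
        ≤ Real.exp (-(10 ^ 6 * 16 ^ p)) * Real.exp 2 :=
          mul_le_mul_of_nonneg_left h4 (Real.exp_pos _).le
      _ = Real.exp (-(10 ^ 6 * 16 ^ p) + 2) := by rw [Real.exp_add]
      _ ≤ _ := by
          apply Real.exp_le_exp.mpr
          obtain ⟨q, hqd⟩ : ∃ q : ℝ, q = 4 ^ p := ⟨_, rfl⟩
          rw [h16, pow_succ (4 : ℝ) p, ← hqd]
          rw [← hqd] at hq
          push_cast
          have h9 : (q * 4 + 1) ^ 2 ≤ 25 * q ^ 2 := by nlinarith
          have h10 : 1 ≤ q ^ 2 := by nlinarith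
          nlinarith
  linarith

end Vale.Agent.P367.Lim
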