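import Vale.Agent.P367.Lim.Mean

namespace Vale.Agent.P367.Lim

open Finset ComplexConjugate MeasureTheory ProbabilityTheory Filter Topology ENNReal
  Vale.Agent.P367.Gap

/-- The infinite-size value exists. -/
theorem qaoaValue_tendsto (p : ℕ) (γ β : Fin p → ℝ) :
    ∃ v : ℝ, Tendsto (fun n : ℕ => qaoaValue n p γ β) atTop (𝓝 v) := by
  set K : ℝ := 12 * Real.exp (1 / 2 + 2 * ∑ k, |γ k|) with hK
  have hK0 : 0 < K := by positivity
  have hch : ∀ (m : ℕ) (ξ : ℝ), ‖(∫ x, Complex.exp (-(Complex.I * ξ * x)) ∂(alf (m + 1) p γ β)) - 1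
      + Complex.I * ξ * (amean (m + 1) p γ β : ℂ)‖ ≤ K * ξ ^ 2 := fun m ξ =>
    char_mean (Nat.succ_pos m) p γ β ξ
  have hC : CauchySeq (fun m : ℕ => amean (m + 1) p γ β) := by
    rw [Metric.cauchySeq_iff]
    intro ε hε
    set ξ : ℝ := ε / (8 * K) with hξ
    have hξ0 : 0 < ξ := by positivity
    have hcs := (tendsto_char_alf p γ β ξ).cauchySeq
    rw [Metric.cauchySeq_iff] at hcs
    obtain ⟨N, hN⟩ := hcs (ξ * ε / 2) (by positivity)
    refine ⟨N, fun m hm m' hm' => ?_⟩
    have h1 := hN m hm m' hm'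
    rw [dist_eq_norm] at h1
    have h2 := hch m ξ
    have h3 := hch m' ξ
    set A := ∫ x, Complex.exp (-(Complex.I * ξ * x)) ∂(alf (m + 1) p γ β) with hA
    set A' := ∫ x, Complex.exp (-(Complex.I * ξ * x)) ∂(alf (m' + 1) p γ β) with hA'
    have h4 : Complex.I * ξ * ((amean (m + 1) p γ β - amean (m' + 1) p γ β : ℝ) : ℂ)
        = (A - 1 + Complex.I * ξ * (amean (m + 1) p γ β : ℂ))
          - (A' - 1 + Complex.I * ξ * (amean (m' + 1) p γ β : ℂ)) - (A - A') := by
      push_cast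
      ring
    have h5 : ‖Complex.I * ξ * ((amean (m + 1) p γ β - amean (m' + 1) p γ β : ℝ) : ℂ)‖
        = ξ * |amean (m + 1) p γ β - amean (m' + 1) p γ β| := by
      rw [norm_mul, norm_mul, Complex.norm_I, one_mul, Complex.norm_real, Complex.norm_real,
        Real.norm_eq_abs, Real.norm_eq_abs, abs_of_pos hξ0]
    have h6 : ξ * |amean (m + 1) p γ β - amean (m' + 1) p γ β| < ξ * ε := by
      rw [← h5, h4]
      calc ‖(A - 1 + Complex.I * ξ * (amean (m + 1) p γ β : ℂ))
          - (A' - 1 + Complex.I * ξ * (amean (m' + 1) p γ β : ℂ)) - (A - A')‖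
          ≤ K * ξ ^ 2 + K * ξ ^ 2 + ‖A - A'‖ := by
            refine (norm_sub_le _ _).trans ?_
            gcongr
            exact (norm_sub_le _ _).trans (add_le_add h2 h3)
        _ < K * ξ ^ 2 + K * ξ ^ 2 + ξ * ε / 2 := by linarith
        _ ≤ ξ * ε := by
            have h7 : K * ξ = ε / 8 := by
              rw [hξ]; field_simp
            have h8 : K * ξ ^ 2 = ξ * ε / 8 := by
              calc K * ξ ^ 2 = (K * ξ) * ξ := by ring
                _ = ξ * ε / 8 := by rw [h7]; ring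
            rw [h8]
            have : 0 < ξ * ε := by positivity
            linarith
    rw [Real.dist_eq]
    exact lt_of_mul_lt_mul_left h6 hξ0.le
  obtain ⟨a, ha⟩ := cauchySeq_tendsto_of_complete hC
  refine ⟨1 / 2 * a, ?_⟩
  rw [← tendsto_add_atTop_iff_nat 1]
  have h := ha.const_mul (1 / 2)
  refine h.congr fun m => ?_
  exact (qaoaValue_eq_amean (m + 1) p γ β).symm

end Vale.Agent.P367.Lim
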