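import Vale.Agent.P367.Gap.Values
import Vale.Agent.P367.Gap.Final
import Vale.Agent.P367.Lim.Limit
import Vale.Agent.P367.Lim.Explicit
import Vale.Agent.P367.GT.Ground

namespace Vale.Agent.P367.Lim

open Filter Topology Vale.Agent.P367.Gap

theorem tendsto_Pstar : Tendsto groundValue atTop (𝓝 Pstar) :=
  tendsto_nhds_limUnder Vale.Agent.P367.GT.groundValue_tendsto

theorem tendsto_vLim (p : ℕ) (γ β : Fin p → ℝ) :
    Tendsto (fun n : ℕ => qaoaValue n p γ β) atTop (𝓝 (vLim p γ β)) :=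
  tendsto_nhds_limUnder (qaoaValue_tendsto p γ β)

theorem vLim_le (p : ℕ) (γ β : Fin p → ℝ) :
    vLim p γ β ≤ Pstar - Real.exp (-(10 ^ 6 * 16 ^ p)) := by
  apply le_of_tendsto_of_tendsto (tendsto_vLim p γ β) (tendsto_Pstar.sub_const _)
  exact gap_explicit p γ β

theorem vLim_le_phase (T : ℝ) (p : ℕ) (γ β : Fin p → ℝ) (hγ : ∑ k, |γ k| ≤ T) :
    vLim p γ β ≤ Pstar - Real.exp (-(10 ^ 8 * (1 + T) ^ 2)) :=
  gap_limit T p γ β hγ _ _ (tendsto_vLim p γ β) tendsto_Pstar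

theorem bdd_vLim (p : ℕ) :
    BddAbove (Set.range fun a : (Fin p → ℝ) × (Fin p → ℝ) => vLim p a.1 a.2) := by
  refine ⟨Pstar - Real.exp (-(10 ^ 6 * 16 ^ p)), ?_⟩
  rintro _ ⟨a, rfl⟩
  exact vLim_le p a.1 a.2

theorem Qsup_le (p : ℕ) : Qsup p ≤ Pstar - Real.exp (-(10 ^ 6 * 16 ^ p)) := by
  unfold Qsup
  exact ciSup_le fun a => vLim_le p a.1 a.2

end Vale.Agent.P367.Lim
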