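import Vale.Agent.P367.Lim.MF

namespace Vale.Agent.P367.Lim

open Finset ComplexConjugate MeasureTheory ProbabilityTheory Vale.Agent.P367.Gap

variable {V : Type} [Fintype V] [DecidableEq V] {V' : Type} [Fintype V'] [DecidableEq V']

lemma FF_equiv (γ β : ℕ → ℝ) (p : ℕ) (s : ℝ) (e : V ≃ V') (ξ : V' → V' → ℝ)
    (φ : V' → CP p → ℂ) :
    FF γ β p s ξ φ = FF γ β p s (fun i j => ξ (e i) (e j)) (fun j => φ (e j)) := by
  unfold FF
  rw [← (Equiv.arrowCongr e (Equiv.refl (CP p))).sum_comp]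
  refine sum_congr rfl fun X _ => ?_
  have h0 : ∀ i, (Equiv.arrowCongr e (Equiv.refl (CP p))) X (e i) = X i := by
    intro i; simp [Equiv.arrowCongr]
  congr 1
  · rw [← e.prod_comp]
    refine prod_congr rfl fun i _ => ?_
    rw [h0]
  · congr 4
    unfold QI
    rw [← e.sum_comp]
    refine sum_congr rfl fun i _ => ?_
    rw [← e.sum_comp]
    refine sum_congr rfl fun j _ => ?_
    rw [h0, h0]
    simp only [EmbeddingLike.apply_eq_iff_eq]

lemma qq_comm (γ : ℕ → ℝ) (p : ℕ) (x y : CP p) : qq γ p x y = qq γ p y x := by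
  unfold qq
  refine sum_congr rfl fun k _ => ?_
  ring

/-- split-off of a group of sites -/
lemma FF_sum (γ β : ℕ → ℝ) (p : ℕ) (s : ℝ) (ξ : V ⊕ V' → V ⊕ V' → ℝ)
    (hξ : ∀ i j, ξ (Sum.inl i) (Sum.inr j) = ξ (Sum.inr j) (Sum.inl i))
    (φ : V ⊕ V' → CP p → ℂ) :
    FF γ β p s ξ φ = ∑ X : V → CP p, (∏ i, wgt β p (X i) * φ (Sum.inl i) (X i)) *
      (Complex.exp (-((s ^ 2 / 4 * QI γ p (fun i j => ξ (Sum.inl i) (Sum.inl j)) X : ℝ) : ℂ)) *
      FF γ β p s (fun i j => ξ (Sum.inr i) (Sum.inr j)) (fun j y => φ (Sum.inr j) y *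
        Complex.exp (-((s ^ 2 / 2 * ∑ i, (qq γ p (X i) y
          + ξ (Sum.inl i) (Sum.inr j) * (lst (X i) * lst y)) ^ 2 : ℝ) : ℂ)))) := by
  unfold FF
  rw [← (Equiv.sumArrowEquivProdArrow V V' (CP p)).symm.sum_comp, Fintype.sum_prod_type]
  refine sum_congr rfl fun X _ => ?_
  rw [mul_sum, mul_sum]
  refine sum_congr rfl fun Y _ => ?_
  have hl : ∀ i, (Equiv.sumArrowEquivProdArrow V V' (CP p)).symm (X, Y) (Sum.inl i) = X i :=
    fun i => rfl
  have hr : ∀ j, (Equiv.sumArrowEquivProdArrow V V' (CP p)).symm (X, Y) (Sum.inr j) = Y j :=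
    fun j => rfl
  rw [Fintype.prod_sum_type]
  simp_rw [hl, hr]
  have hq : QI γ p ξ ((Equiv.sumArrowEquivProdArrow V V' (CP p)).symm (X, Y))
      = QI γ p (fun i j => ξ (Sum.inl i) (Sum.inl j)) X
        + QI γ p (fun i j => ξ (Sum.inr i) (Sum.inr j)) Y
        + 2 * ∑ j, ∑ i, (qq γ p (X i) (Y j)
          + ξ (Sum.inl i) (Sum.inr j) * (lst (X i) * lst (Y j))) ^ 2 := by
    unfold QI
    simp only [Fintype.sum_sum_type, hl, hr, Sum.inl.injEq, Sum.inr.injEq, reduceCtorEq, if_false,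
      sum_add_distrib]
    have h1 : ∑ x : V', ∑ x_1 : V, (qq γ p (Y x) (X x_1)
          + ξ (Sum.inr x) (Sum.inl x_1) * (lst (Y x) * lst (X x_1))) ^ 2
        = ∑ j, ∑ i, (qq γ p (X i) (Y j)
          + ξ (Sum.inl i) (Sum.inr j) * (lst (X i) * lst (Y j))) ^ 2 := by
      refine sum_congr rfl fun j _ => sum_congr rfl fun i _ => ?_
      rw [qq_comm, hξ, mul_comm (lst (Y j))]
    have h2 : ∑ x : V, ∑ x_1 : V', (qq γ p (X x) (Y x_1)
          + ξ (Sum.inl x) (Sum.inr x_1) * (lst (X x) * lst (Y x_1))) ^ 2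
        = ∑ j, ∑ i, (qq γ p (X i) (Y j)
          + ξ (Sum.inl i) (Sum.inr j) * (lst (X i) * lst (Y j))) ^ 2 := by
      rw [sum_comm]
    rw [h1, h2]
    ring
  have hp : ∏ j, wgt β p (Y j) * (φ (Sum.inr j) (Y j) *
        Complex.exp (-((s ^ 2 / 2 * ∑ i, (qq γ p (X i) (Y j)
          + ξ (Sum.inl i) (Sum.inr j) * (lst (X i) * lst (Y j))) ^ 2 : ℝ) : ℂ)))
      = (∏ j, wgt β p (Y j) * φ (Sum.inr j) (Y j)) *
        Complex.exp (-((s ^ 2 / 2 * ∑ j, ∑ i, (qq γ p (X i) (Y j)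
          + ξ (Sum.inl i) (Sum.inr j) * (lst (X i) * lst (Y j))) ^ 2 : ℝ) : ℂ)) := by
    have : ∀ j, wgt β p (Y j) * (φ (Sum.inr j) (Y j) *
        Complex.exp (-((s ^ 2 / 2 * ∑ i, (qq γ p (X i) (Y j)
          + ξ (Sum.inl i) (Sum.inr j) * (lst (X i) * lst (Y j))) ^ 2 : ℝ) : ℂ)))
        = (wgt β p (Y j) * φ (Sum.inr j) (Y j)) *
        Complex.exp (-((s ^ 2 / 2 * ∑ i, (qq γ p (X i) (Y j)
          + ξ (Sum.inl i) (Sum.inr j) * (lst (X i) * lst (Y j))) ^ 2 : ℝ) : ℂ)) := fun j => by ring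
    simp_rw [this]
    rw [prod_mul_distrib, ← Complex.exp_sum]
    congr 2
    rw [sum_neg_distrib, ← Complex.ofReal_sum, mul_sum]
  rw [hp, hq]
  have he : Complex.exp (-((s ^ 2 / 4 * (QI γ p (fun i j => ξ (Sum.inl i) (Sum.inl j)) X
        + QI γ p (fun i j => ξ (Sum.inr i) (Sum.inr j)) Y
        + 2 * ∑ j, ∑ i, (qq γ p (X i) (Y j)
          + ξ (Sum.inl i) (Sum.inr j) * (lst (X i) * lst (Y j))) ^ 2) : ℝ) : ℂ))
      = Complex.exp (-((s ^ 2 / 4 * QI γ p (fun i j => ξ (Sum.inl i) (Sum.inl j)) X : ℝ) : ℂ)) *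
        Complex.exp (-((s ^ 2 / 4 * QI γ p (fun i j => ξ (Sum.inr i) (Sum.inr j)) Y : ℝ) : ℂ)) *
        Complex.exp (-((s ^ 2 / 2 * ∑ j, ∑ i, (qq γ p (X i) (Y j)
          + ξ (Sum.inl i) (Sum.inr j) * (lst (X i) * lst (Y j))) ^ 2 : ℝ) : ℂ)) := by
    rw [← Complex.exp_add, ← Complex.exp_add]
    congr 1
    push_cast
    ring
  rw [he]
  ring

/-- closed-path restriction: `qh = qq` when both paths are closed -/
lemma qh_eq_of_closed (γ : ℕ → ℝ) (p : ℕ) (x y : CP p)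
    (hx : x.1 (Fin.last p) = x.2 (Fin.last p)) (hy : y.1 (Fin.last p) = y.2 (Fin.last p)) :
    qh γ p x y = qq γ p x y := by
  rw [qh_eq, hx, hy]
  ring

lemma sum_last (β : ℕ → ℝ) (p : ℕ) (x : CP p) :
    ∑ c : Bool × Bool, wgt β (p + 1)
      ((Fin.snoc (α := fun _ => Bool) x.1 c.1, Fin.snoc (α := fun _ => Bool) x.2 c.2) : CP (p + 1))
      = wgt β p x := by
  have h1 : ∀ c : Bool × Bool, wgt β (p + 1)
      ((Fin.snoc (α := fun _ => Bool) x.1 c.1, Fin.snoc (α := fun _ => Bool) x.2 c.2) : CP (p + 1))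
      = (mix (β p) c.1 (x.1 (Fin.last p)) * conj (mix (β p) c.2 (x.2 (Fin.last p)))
        * (if c.1 = c.2 then 1 else 0)) * (kap β p x.1 * conj (kap β p x.2)) := by
    intro c
    simp only [wgt, kap, Fin.snoc_last, Fin.snoc_castSucc, Fin.init_snoc, map_mul]
    ring
  simp_rw [h1]
  rw [← sum_mul, Fintype.sum_prod_type]
  have h2 : ∀ c : Bool, ∑ d : Bool, (mix (β p) c (x.1 (Fin.last p))
      * conj (mix (β p) d (x.2 (Fin.last p))) * (if c = d then (1 : ℂ) else 0))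
      = mix (β p) c (x.1 (Fin.last p)) * conj (mix (β p) c (x.2 (Fin.last p))) := by
    intro c
    rw [sum_eq_single c]
    · simp
    · intro d _ hd; simp [Ne.symm hd]
    · intro h; exact absurd (mem_univ c) h
  simp only [h2, mix_unitary]
  unfold wgt
  ring

/-- split off the last time of contour paths -/
def splitC (V : Type) (p : ℕ) : (V → CP (p + 1)) ≃ (V → CP p) × (V → Bool × Bool) where
  toFun X := (fun j => ini (X j), fun j => ((X j).1 (Fin.last (p + 1)), (X j).2 (Fin.last (p + 1))))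
  invFun B := fun j => (Fin.snoc (α := fun _ => Bool) (B.1 j).1 (B.2 j).1,
    Fin.snoc (α := fun _ => Bool) (B.1 j).2 (B.2 j).2)
  left_inv X := by
    funext j
    refine Prod.ext ?_ ?_
    · exact Fin.snoc_init_self (X j).1
    · exact Fin.snoc_init_self (X j).2
  right_inv B := by
    refine Prod.ext ?_ ?_
    · funext j
      simp only [ini, Fin.init_snoc]
    · funext j
      simp only [Fin.snoc_last]

/-- causality -/
theorem FF_succ (γ β : ℕ → ℝ) (p : ℕ) (s : ℝ) (φ : V → CP p → ℂ) :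
    FF γ β (p + 1) s (fun _ _ => 0) (fun j x => φ j (ini x)) = FF γ β p s (fun _ _ => 0) φ := by
  unfold FF
  rw [← (splitC V p).symm.sum_comp, Fintype.sum_prod_type]
  refine sum_congr rfl fun X _ => ?_
  have hini : ∀ c j, ini ((splitC V p).symm (X, c) j) = X j := by
    intro c j
    simp only [splitC, Equiv.coe_fn_symm_mk, ini, Fin.init_snoc]
  have hQ : ∀ c, QI γ (p + 1) (fun _ _ => 0) ((splitC V p).symm (X, c))
      = ∑ i, ∑ j, if i = j then 0 else (qh γ p (X i) (X j)) ^ 2 := by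
    intro c
    unfold QI
    refine sum_congr rfl fun i _ => sum_congr rfl fun j _ => ?_
    rw [qq_succ, hini, hini]
    simp
  simp_rw [hQ, hini]
  rw [← sum_mul]
  have h3 : ∑ c : V → Bool × Bool, ∏ j, wgt β (p + 1) ((splitC V p).symm (X, c) j) * φ j (X j)
      = ∏ j, wgt β p (X j) * φ j (X j) := by
    simp_rw [prod_mul_distrib]
    rw [← sum_mul]
    congr 1
    have h4 := (Finset.prod_univ_sum (fun _ : V => (univ : Finset (Bool × Bool)))
      (fun j c => wgt β (p + 1) ((Fin.snoc (α := fun _ => Bool) (X j).1 c.1,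
        Fin.snoc (α := fun _ => Bool) (X j).2 c.2) : CP (p + 1))))
    rw [Fintype.piFinset_univ] at h4
    have h5 : ∀ c : V → Bool × Bool, ∀ j, (splitC V p).symm (X, c) j
        = ((Fin.snoc (α := fun _ => Bool) (X j).1 (c j).1,
          Fin.snoc (α := fun _ => Bool) (X j).2 (c j).2) : CP (p + 1)) := fun c j => rfl
    simp_rw [h5]
    rw [← h4]
    refine prod_congr rfl fun j _ => ?_
    exact sum_last β p (X j)
  rw [h3]
  by_cases hcl : ∀ j, (X j).1 (Fin.last p) = (X j).2 (Fin.last p)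
  · congr 5
    unfold QI
    refine sum_congr rfl fun i _ => sum_congr rfl fun j _ => ?_
    rw [qh_eq_of_closed γ p _ _ (hcl i) (hcl j)]
    simp
  · push Not at hcl
    obtain ⟨j, hj⟩ := hcl
    have h0 : ∏ j, wgt β p (X j) * φ j (X j) = 0 := by
      refine prod_eq_zero (mem_univ j) ?_
      unfold wgt
      rw [if_neg hj]
      ring
    rw [h0]
    ring

end Vale.Agent.P367.Lim
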