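import Vale.Agent.P367.Lim.LT1

namespace Vale.Agent.P367.Lim

open Finset ComplexConjugate MeasureTheory ProbabilityTheory Filter Topology Vale.Agent.P367.Gap

/-- marginal of `m` sites in a system of `m + N` sites -/
noncomputable def Mg (γ β : ℕ → ℝ) (p m N : ℕ) (s : ℝ) (y : Fin m → CP p) : ℂ :=
  FF (V := Fin m ⊕ Fin N) γ β p s (fun _ _ => 0)
    (Sum.elim (fun i x => if x = y i then 1 else 0) (fun _ _ => 1))

lemma indicator_prod {p : ℕ} (x y : CP p) : (if x = y then (1 : ℂ) else 0)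
    = (∏ k, if x.1 k = y.1 k then (1 : ℂ) else 0) * ∏ k, if x.2 k = y.2 k then (1 : ℂ) else 0 := by
  by_cases h : x = y
  · subst h; simp
  · rw [if_neg h]
    symm
    by_cases h1 : x.1 = y.1
    · have h2 : x.2 ≠ y.2 := fun h2 => h (Prod.ext h1 h2)
      obtain ⟨k, hk⟩ := Function.ne_iff.1 h2
      rw [prod_eq_zero (s := univ) (f := fun k => if x.2 k = y.2 k then (1 : ℂ) else 0)
        (mem_univ k) (if_neg hk), mul_zero]
    · obtain ⟨k, hk⟩ := Function.ne_iff.1 h1
      rw [prod_eq_zero (s := univ) (f := fun k => if x.1 k = y.1 k then (1 : ℂ) else 0)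
        (mem_univ k) (if_neg hk), zero_mul]

lemma norm_Mg_le (γ β : ℕ → ℝ) (p m N : ℕ) (s : ℝ) (y : Fin m → CP p) :
    ‖Mg γ β p m N s y‖ ≤ 1 := by
  refine norm_FF_le γ β p s _ _
    (Sum.elim (fun i k b => if b = (y i).1 k then 1 else 0) (fun _ _ _ => 1))
    (Sum.elim (fun i k b => if b = (y i).2 k then 1 else 0) (fun _ _ _ => 1)) ?_ ?_ ?_
  · rintro (i | j) k b
    · simp only [Sum.elim_inl]; split_ifs <;> simp
    · simp
  · rintro (i | j) k b
    · simp only [Sum.elim_inl]; split_ifs <;> simp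
    · simp
  · rintro (i | j) x
    · simp only [Sum.elim_inl]
      exact indicator_prod x (y i)
    · simp

lemma FF_inl (γ β : ℕ → ℝ) (p r N : ℕ) (s : ℝ) (u : CP p → ℂ) :
    FF (V := Fin r ⊕ Fin N) γ β p s (fun _ _ => 0) (Sum.elim (fun _ => u) (fun _ _ => 1))
      = ∑ y : Fin r → CP p, (∏ i, u (y i)) * Mg γ β p r N s y := by
  unfold Mg FF
  simp_rw [mul_sum]
  rw [sum_comm]
  refine sum_congr rfl fun X _ => ?_
  simp_rw [Fintype.prod_sum_type, Sum.elim_inl, Sum.elim_inr, prod_mul_distrib]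
  have h1 : ∑ y : Fin r → CP p, (∏ i, u (y i)) * (∏ i, if X (Sum.inl i) = y i then (1 : ℂ) else 0)
      = ∏ i, u (X (Sum.inl i)) := by
    rw [sum_eq_single (fun i => X (Sum.inl i))]
    · simp
    · intro y _ hy
      obtain ⟨i, hi⟩ := Function.ne_iff.1 hy
      rw [prod_eq_zero (s := univ) (f := fun i => if X (Sum.inl i) = y i then (1 : ℂ) else 0)
        (mem_univ i) (if_neg (fun h => hi h.symm)), mul_zero]
    · intro h; exact absurd (mem_univ _) h
  rw [← h1, mul_sum, sum_mul, sum_mul]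
  refine sum_congr rfl fun y _ => ?_
  ring

lemma FF_powerset (γ β : ℕ → ℝ) (p N : ℕ) (s : ℝ) (u : CP p → ℂ) :
    FF (V := Fin N) γ β p s (fun _ _ => 0) (fun _ x => 1 + u x)
      = ∑ T ∈ (univ : Finset (Fin N)).powerset,
        FF (V := Fin N) γ β p s (fun _ _ => 0) (fun j x => if j ∈ T then u x else 1) := by
  unfold FF
  rw [sum_comm]
  refine sum_congr rfl fun X _ => ?_
  rw [prod_mul_distrib, prod_one_add, mul_sum, sum_mul]
  refine sum_congr rfl fun T _ => ?_
  rw [prod_mul_distrib, prod_ite_mem, univ_inter]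

lemma FF_subset (γ β : ℕ → ℝ) (p N : ℕ) (s : ℝ) (u : CP p → ℂ) (T : Finset (Fin N)) :
    FF (V := Fin N) γ β p s (fun _ _ => 0) (fun j x => if j ∈ T then u x else 1)
      = FF (V := Fin T.card ⊕ Fin (N - T.card)) γ β p s (fun _ _ => 0)
        (Sum.elim (fun _ => u) (fun _ _ => 1)) := by
  have hn : Tᶜ.card = N - T.card := by
    rw [card_compl, Fintype.card_fin]
  rw [FF_equiv γ β p s (finSumEquivOfFinset (rfl : T.card = T.card) hn)]
  congr 1
  funext j
  rcases j with i | j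
  · funext x
    rw [finSumEquivOfFinset_inl, if_pos (orderEmbOfFin_mem T rfl i)]
    rfl
  · funext x
    have := orderEmbOfFin_mem Tᶜ hn j
    rw [finSumEquivOfFinset_inr, if_neg (mem_compl.1 this)]
    rfl

lemma FF_one_add (γ β : ℕ → ℝ) (p N : ℕ) (s : ℝ) (u : CP p → ℂ) :
    FF (V := Fin N) γ β p s (fun _ _ => 0) (fun _ x => 1 + u x)
      = ∑ r ∈ range (N + 1), (N.choose r : ℂ) *
        ∑ y : Fin r → CP p, (∏ i, u (y i)) * Mg γ β p r (N - r) s y := by
  rw [FF_powerset]
  simp_rw [FF_subset, FF_inl]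
  have := sum_powerset_apply_card (fun r => ∑ y : Fin r → CP p, (∏ i, u (y i))
    * Mg γ β p r (N - r) s y) (x := (univ : Finset (Fin N)))
  rw [this, card_univ, Fintype.card_fin]
  refine sum_congr rfl fun r _ => ?_
  rw [nsmul_eq_mul]

/-- limiting one-site weights -/
noncomputable def gg (γ β : ℕ → ℝ) : (p : ℕ) → CP p → ℂ
  | 0, x => wgt β 0 x
  | p + 1, x => wgt β (p + 1) x *
      Complex.exp (-(1 / 2 * ∑ y : CP p, gg γ β p y * ((qh γ p (ini x) y ^ 2 : ℝ) : ℂ)))

/-- convergence of all marginals -/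
def LT (γ β : ℕ → ℝ) (p : ℕ) : Prop :=
  ∀ (m : ℕ) (y : Fin m → CP p) (s : ℕ → ℝ), Tendsto (fun N : ℕ => (N : ℝ) * s N ^ 2) atTop (𝓝 1) →
    Tendsto (fun N => Mg γ β p m N (s N) y) atTop (𝓝 (∏ i, gg γ β p (y i)))

lemma tendsto_shift_s (s : ℕ → ℝ) (hs : Tendsto (fun N : ℕ => (N : ℝ) * s N ^ 2) atTop (𝓝 1))
    (r : ℕ) : Tendsto (fun N : ℕ => (N : ℝ) * s (N + r) ^ 2) atTop (𝓝 1) := by
  have h1 : Tendsto (fun N : ℕ => ((N + r : ℕ) : ℝ) * s (N + r) ^ 2) atTop (𝓝 1) :=
    hs.comp (tendsto_add_atTop_nat r)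
  have h2 : Tendsto (fun N : ℕ => (N : ℝ) / ((N + r : ℕ) : ℝ)) atTop (𝓝 1) := by
    have := tendsto_natCast_div_add_atTop (𝕜 := ℝ) (r : ℝ)
    refine this.congr fun N => ?_
    push_cast; rfl
  have h3 := h2.mul h1
  rw [one_mul] at h3
  refine (h3.congr' ?_)
  filter_upwards [eventually_gt_atTop 0] with N hN
  have : ((N + r : ℕ) : ℝ) ≠ 0 := by positivity
  field_simp

lemma tendsto_Mg_sub (γ β : ℕ → ℝ) (p : ℕ) (h : LT γ β p) (r : ℕ) (y : Fin r → CP p) (s : ℕ → ℝ)
    (hs : Tendsto (fun N : ℕ => (N : ℝ) * s N ^ 2) atTop (𝓝 1)) :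
    Tendsto (fun N => Mg γ β p r (N - r) (s N) y) atTop (𝓝 (∏ i, gg γ β p (y i))) := by
  have h1 := h r y (fun N => s (N + r)) (tendsto_shift_s s hs r)
  have h2 : Tendsto (fun N : ℕ => N - r) atTop atTop := tendsto_sub_atTop_nat r
  refine (h1.comp h2).congr' ?_
  filter_upwards [eventually_ge_atTop r] with N hN
  simp only [Function.comp]
  rw [Nat.sub_add_cancel hN]

/-- exponential functionals converge -/
theorem tendsto_FF_exp (γ β : ℕ → ℝ) (p : ℕ) (h : LT γ β p) (s : ℕ → ℝ)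
    (hs : Tendsto (fun N : ℕ => (N : ℝ) * s N ^ 2) atTop (𝓝 1))
    (u : ℕ → CP p → ℂ) (t : CP p → ℂ)
    (hu : ∀ y, Tendsto (fun N : ℕ => (N : ℂ) * u N y) atTop (𝓝 (t y))) :
    Tendsto (fun N => FF (V := Fin N) γ β p (s N) (fun _ _ => 0) (fun _ x => 1 + u N x)) atTop
      (𝓝 (Complex.exp (∑ y, gg γ β p y * t y))) := by
  -- termwise description
  let a : ℕ → ℕ → ℂ := fun N r => (N.choose r : ℂ) *
        ∑ y : Fin r → CP p, (∏ i, u N (y i)) * Mg γ β p r (N - r) (s N) y
  have ha : ∀ N, FF (V := Fin N) γ β p (s N) (fun _ _ => 0) (fun _ x => 1 + u N x)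
      = ∑' r, a N r := by
    intro N
    rw [FF_one_add, tsum_eq_sum (s := range (N + 1))]
    intro r hr
    have : N < r := by
      by_contra h'
      exact hr (mem_range.2 (by omega))
    simp only [a, Nat.choose_eq_zero_of_lt this, Nat.cast_zero, zero_mul]
  simp_rw [ha]
  let A : ℂ := ∑ y, gg γ β p y * t y
  have hexp : Complex.exp A = ∑' r : ℕ, A ^ r / (r.factorial : ℂ) := by
    rw [Complex.exp_eq_exp_ℂ, NormedSpace.exp_eq_tsum_div]
  change Tendsto (fun N => ∑' r, a N r) atTop (𝓝 (Complex.exp A))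
  rw [hexp]
  -- uniform bound
  obtain ⟨C, hC0, hC⟩ : ∃ C : ℝ, 0 ≤ C ∧ ∀ᶠ N : ℕ in atTop, ∀ y, ‖(N : ℂ) * u N y‖ ≤ C := by
    refine ⟨∑ y, (‖t y‖ + 1), sum_nonneg fun _ _ => by positivity, ?_⟩
    rw [eventually_all]
    intro y
    have h1 : ∀ᶠ N : ℕ in atTop, ‖(N : ℂ) * u N y‖ < ‖t y‖ + 1 :=
      (hu y).norm.eventually_lt_const (by linarith)
    filter_upwards [h1] with N hN
    refine hN.le.trans ?_
    exact single_le_sum (f := fun y => ‖t y‖ + 1) (fun _ _ => by positivity) (mem_univ y)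
  refine tendsto_tsum_of_dominated_convergence
    (bound := fun r : ℕ => (C * Fintype.card (CP p)) ^ r / r.factorial)
    (Real.summable_pow_div_factorial _) ?_ ?_
  · intro r
    have h1 : Tendsto (fun N : ℕ => (N.choose r : ℂ) * ((1 : ℂ) / N) ^ r) atTop
        (𝓝 (1 / (r.factorial : ℂ))) := by
      have h2 : Tendsto (fun n : ℕ => (n : ℝ) * (1 / n)) atTop (𝓝 1) := by
        refine tendsto_const_nhds.congr' ?_
        filter_upwards [eventually_gt_atTop 0] with n hn
        have : (n : ℝ) ≠ 0 := by positivity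
        field_simp
      have h3 := tendsto_choose_mul_pow_atTop (k := r) h2
      rw [one_pow] at h3
      have h4 := (Complex.continuous_ofReal.tendsto _).comp h3
      refine (h4.congr fun n => ?_).trans (le_of_eq ?_)
      · simp
      · simp
    have h5 : ∀ y : Fin r → CP p, Tendsto (fun N : ℕ => (∏ i, ((N : ℂ) * u N (y i)))
        * Mg γ β p r (N - r) (s N) y) atTop
        (𝓝 ((∏ i, t (y i)) * ∏ i, gg γ β p (y i))) := fun y =>
      (tendsto_finsetProd _ fun i _ => hu (y i)).mul (tendsto_Mg_sub γ β p h r y s hs)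
    have h6 := h1.mul (tendsto_finsetSum univ fun y _ => h5 y)
    have h7 : 1 / (r.factorial : ℂ) * ∑ y : Fin r → CP p, (∏ i, t (y i)) * ∏ i, gg γ β p (y i)
        = A ^ r / (r.factorial : ℂ) := by
      have : A ^ r = ∑ y : Fin r → CP p, (∏ i, t (y i)) * ∏ i, gg γ β p (y i) := by
        have h8 := (Finset.prod_univ_sum (fun _ : Fin r => (univ : Finset (CP p)))
          (fun _ y => gg γ β p y * t y))
        rw [Fintype.piFinset_univ, prod_const, card_univ, Fintype.card_fin] at h8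
        rw [h8]
        refine sum_congr rfl fun y _ => ?_
        rw [prod_mul_distrib, mul_comm]
      rw [this]
      ring
    rw [h7] at h6
    refine h6.congr' ?_
    filter_upwards [eventually_gt_atTop 0] with N hN
    have hN' : (N : ℂ) ≠ 0 := by exact_mod_cast hN.ne'
    simp only [a, mul_sum]
    refine sum_congr rfl fun y _ => ?_
    rw [prod_mul_distrib, prod_const, card_univ, Fintype.card_fin, one_div, inv_pow]
    field_simp
  · filter_upwards [hC, eventually_gt_atTop 0] with N hN hN0 r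
    have hN' : (0 : ℝ) < N := by exact_mod_cast hN0
    have hub : ∀ y, ‖u N y‖ ≤ C / N := by
      intro y
      rw [le_div_iff₀ hN', mul_comm]
      simpa using hN y
    simp only [a, norm_mul, Complex.norm_natCast]
    have h1 : ‖∑ y : Fin r → CP p, (∏ i, u N (y i)) * Mg γ β p r (N - r) (s N) y‖
        ≤ (Fintype.card (CP p) : ℝ) ^ r * (C / N) ^ r := by
      refine (norm_sum_le _ _).trans ?_
      calc ∑ y : Fin r → CP p, ‖(∏ i, u N (y i)) * Mg γ β p r (N - r) (s N) y‖
          ≤ ∑ _y : Fin r → CP p, (C / N) ^ r := by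
            refine sum_le_sum fun y _ => ?_
            rw [norm_mul, norm_prod]
            have h2 : ∏ i, ‖u N (y i)‖ ≤ (C / N) ^ r := by
              calc ∏ i, ‖u N (y i)‖ ≤ ∏ _i : Fin r, (C / N) :=
                    prod_le_prod (fun _ _ => norm_nonneg _) fun i _ => hub (y i)
                _ = (C / N) ^ r := by rw [prod_const, card_univ, Fintype.card_fin]
            calc (∏ i, ‖u N (y i)‖) * ‖Mg γ β p r (N - r) (s N) y‖
                ≤ (C / N) ^ r * 1 := by
                  gcongr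
                  exact norm_Mg_le _ _ _ _ _ _ _
              _ = _ := mul_one _
        _ = _ := by
            rw [sum_const, card_univ, Fintype.card_fun, Fintype.card_fin, nsmul_eq_mul]
            push_cast
            rfl
    have h3 : (N.choose r : ℝ) ≤ (N : ℝ) ^ r / r.factorial := Nat.choose_le_pow_div r N
    calc (N.choose r : ℝ) * ‖∑ y : Fin r → CP p, (∏ i, u N (y i)) * Mg γ β p r (N - r) (s N) y‖
        ≤ ((N : ℝ) ^ r / r.factorial) * ((Fintype.card (CP p) : ℝ) ^ r * (C / N) ^ r) := by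
          gcongr
      _ = (C * Fintype.card (CP p)) ^ r / r.factorial := by
          rw [mul_pow, div_pow]
          field_simp

end Vale.Agent.P367.Lim
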