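import Vale.Agent.P367.Lim.LT2

namespace Vale.Agent.P367.Lim

open Finset ComplexConjugate MeasureTheory ProbabilityTheory Filter Topology Vale.Agent.P367.Gap

lemma tendsto_nat_mul_exp_sub_one (c : ℕ → ℂ) (c0 : ℂ)
    (hc : Tendsto (fun N : ℕ => (N : ℂ) * c N) atTop (𝓝 c0)) :
    Tendsto (fun N : ℕ => (N : ℂ) * (Complex.exp (c N) - 1)) atTop (𝓝 c0) := by
  have hinv : Tendsto (fun N : ℕ => ((N : ℂ))⁻¹) atTop (𝓝 0) := by
    have := tendsto_inv_atTop_nhds_zero_nat (𝕜 := ℂ)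
    exact this
  have hc1 : Tendsto c atTop (𝓝 0) := by
    have := hinv.mul hc
    rw [zero_mul] at this
    refine this.congr' ?_
    filter_upwards [eventually_gt_atTop 0] with N hN
    have : (N : ℂ) ≠ 0 := by exact_mod_cast hN.ne'
    field_simp
  have hrem : Tendsto (fun N : ℕ => (N : ℂ) * (Complex.exp (c N) - 1 - c N)) atTop (𝓝 0) := by
    rw [tendsto_zero_iff_norm_tendsto_zero]
    have hb : Tendsto (fun N : ℕ => ‖(N : ℂ) * c N‖ * ‖c N‖) atTop (𝓝 0) := by
      have := hc.norm.mul hc1.norm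
      simpa using this
    refine squeeze_zero' (Eventually.of_forall fun _ => norm_nonneg _) ?_ hb
    have h1 : ∀ᶠ N in atTop, ‖c N‖ < 1 := by
      have := hc1.norm
      rw [norm_zero] at this
      exact this.eventually_lt_const one_pos
    filter_upwards [h1] with N hN
    rw [norm_mul, norm_mul, mul_assoc]
    have := Complex.norm_exp_sub_one_sub_id_le hN.le
    rw [pow_two] at this
    gcongr
  have := hrem.add hc
  rw [zero_add] at this
  refine this.congr fun N => ?_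
  ring

/-- convergence of exponential functionals -/
theorem tendsto_FF_T (γ β : ℕ → ℝ) (p : ℕ) (h : LT γ β p) (s : ℕ → ℝ)
    (hs : Tendsto (fun N : ℕ => (N : ℝ) * s N ^ 2) atTop (𝓝 1)) (T : CP p → ℝ) :
    Tendsto (fun N => FF (V := Fin N) γ β p (s N) (fun _ _ => 0)
      (fun _ x => Complex.exp (-((s N ^ 2 / 2 * T x : ℝ) : ℂ)))) atTop
      (𝓝 (Complex.exp (-(1 / 2 * ∑ y, gg γ β p y * ((T y : ℝ) : ℂ))))) := by
  have h1 := tendsto_FF_exp γ β p h s hs
    (fun N x => Complex.exp (-((s N ^ 2 / 2 * T x : ℝ) : ℂ)) - 1)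
    (fun x => -(1 / 2 * ((T x : ℝ) : ℂ))) (by
      intro y
      refine tendsto_nat_mul_exp_sub_one _ _ ?_
      have h2 : Tendsto (fun N : ℕ => -((((N : ℝ) * s N ^ 2) * (1 / 2 * T y) : ℝ) : ℂ)) atTop
          (𝓝 (-(((1 : ℝ) * (1 / 2 * T y) : ℝ) : ℂ))) := by
        refine Tendsto.neg ?_
        exact (Complex.continuous_ofReal.tendsto _).comp (hs.mul_const _)
      refine (h2.congr fun N => ?_).trans (le_of_eq ?_)
      · push_cast; ring
      · congr 1; push_cast; ring)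
  have h3 : ∑ y, gg γ β p y * (-(1 / 2 * ((T y : ℝ) : ℂ)))
      = -(1 / 2 * ∑ y, gg γ β p y * ((T y : ℝ) : ℂ)) := by
    rw [mul_sum, ← sum_neg_distrib]
    refine sum_congr rfl fun y _ => ?_
    ring
  rw [h3] at h1
  refine h1.congr fun N => ?_
  congr 1
  funext j x
  ring

lemma sum_wgt_zero (β : ℕ → ℝ) : ∑ x : CP 0, wgt β 0 x = 1 := by
  rw [Fintype.sum_prod_type]
  have h : ∀ a b : Pth 0, wgt β 0 (a, b) = if a = b then (1 / 2 : ℂ) else 0 := by
    intro a b
    have hs : (((Real.sqrt 2)⁻¹ : ℝ) : ℂ) * (((Real.sqrt 2)⁻¹ : ℝ) : ℂ) = 1 / 2 := by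
      rw [← Complex.ofReal_mul, ← mul_inv, Real.mul_self_sqrt (by norm_num)]
      norm_num
    by_cases hab : a = b
    · subst hab
      simp only [wgt, kap, Complex.conj_ofReal, if_true, mul_one]
      exact hs
    · have : a (Fin.last 0) ≠ b (Fin.last 0) := by
        intro h'
        apply hab
        funext k
        rw [Subsingleton.elim (α := Fin 1) k (Fin.last 0)]
        exact h'
      simp only [wgt]
      rw [if_neg this, if_neg hab, mul_zero]
  simp_rw [h]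
  simp only [sum_ite_eq, mem_univ, if_true]
  rw [sum_const, card_univ, Fintype.card_fun, Fintype.card_fin, Fintype.card_bool]
  norm_num

lemma LT_zero (γ β : ℕ → ℝ) : LT γ β 0 := by
  intro m y s _
  have h : ∀ N, Mg γ β 0 m N (s N) y = ∏ i, gg γ β 0 (y i) := by
    intro N
    unfold Mg FF
    have hq : ∀ X : Fin m ⊕ Fin N → CP 0, QI γ 0 (fun _ _ => 0) X = 0 := by
      intro X
      unfold QI
      refine sum_eq_zero fun i _ => sum_eq_zero fun j _ => ?_
      simp [qq]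
    simp_rw [hq]
    simp only [mul_zero, Complex.ofReal_zero, neg_zero, Complex.exp_zero, mul_one]
    have h4 := (Finset.prod_univ_sum (fun _ : Fin m ⊕ Fin N => (univ : Finset (CP 0)))
      (fun j x => wgt β 0 x * (Sum.elim (fun i x => if x = y i then (1 : ℂ) else 0)
        (fun _ _ => 1) j : CP 0 → ℂ) x))
    rw [Fintype.piFinset_univ] at h4
    rw [← h4, Fintype.prod_sum_type]
    simp only [Sum.elim_inl, Sum.elim_inr, mul_one, sum_wgt_zero, prod_const_one, mul_ite,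
      mul_zero, sum_ite_eq', mem_univ, if_true]
    rfl
  simp_rw [h]
  exact tendsto_const_nhds

lemma Mg_succ (γ β : ℕ → ℝ) (p m N : ℕ) (s : ℝ) (y : Fin m → CP (p + 1)) :
    Mg γ β (p + 1) m N s y = (∏ i, wgt β (p + 1) (y i)) *
      (Complex.exp (-((s ^ 2 / 4 * QI γ (p + 1) (fun _ _ => 0) y : ℝ) : ℂ)) *
      FF (V := Fin N) γ β p s (fun _ _ => 0)
        (fun _ x => Complex.exp (-((s ^ 2 / 2 * ∑ i, qh γ p (ini (y i)) x ^ 2 : ℝ) : ℂ)))) := by
  unfold Mg
  rw [FF_sum _ _ _ _ _ (fun _ _ => rfl)]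
  rw [sum_eq_single y]
  · simp only [Sum.elim_inl, Sum.elim_inr, if_true, mul_one, zero_mul, add_zero, one_mul]
    congr 2
    have h := FF_succ (V := Fin N) γ β p s (fun _ x =>
      Complex.exp (-((s ^ 2 / 2 * ∑ i, qh γ p (ini (y i)) x ^ 2 : ℝ) : ℂ)))
    refine Eq.trans ?_ h
    rfl
  · intro X _ hX
    obtain ⟨i, hi⟩ := Function.ne_iff.1 hX
    rw [prod_eq_zero (mem_univ i), zero_mul]
    simp only [Sum.elim_inl]
    rw [if_neg hi, mul_zero]
  · intro h; exact absurd (mem_univ _) h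

theorem LT_succ (γ β : ℕ → ℝ) (p : ℕ) (h : LT γ β p) : LT γ β (p + 1) := by
  intro m y s hs
  simp_rw [Mg_succ]
  have h1 := tendsto_FF_T γ β p h s hs (fun x => ∑ i, qh γ p (ini (y i)) x ^ 2)
  have hs0 : Tendsto (fun N : ℕ => s N ^ 2) atTop (𝓝 0) := by
    have h2 : Tendsto (fun N : ℕ => ((N : ℝ))⁻¹) atTop (𝓝 0) := tendsto_inv_atTop_nhds_zero_nat
    have h3 := h2.mul hs
    rw [zero_mul] at h3
    refine h3.congr' ?_
    filter_upwards [eventually_gt_atTop 0] with N hN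
    have : (N : ℝ) ≠ 0 := by exact_mod_cast hN.ne'
    field_simp
  have h2 : Tendsto (fun N : ℕ => Complex.exp
      (-((s N ^ 2 / 4 * QI γ (p + 1) (fun _ _ => 0) y : ℝ) : ℂ))) atTop (𝓝 1) := by
    have h3 : Tendsto (fun N : ℕ => (-((s N ^ 2 / 4 * QI γ (p + 1) (fun _ _ => 0) y : ℝ) : ℂ)))
        atTop (𝓝 (-(((0 : ℝ) / 4 * QI γ (p + 1) (fun _ _ => 0) y : ℝ) : ℂ))) := by
      refine Tendsto.neg ?_
      exact (Complex.continuous_ofReal.tendsto _).comp ((hs0.div_const 4).mul_const _)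
    have h4 := (Complex.continuous_exp.tendsto _).comp h3
    refine h4.trans (le_of_eq ?_)
    simp
  have h3 := (h2.mul h1).const_mul (∏ i, wgt β (p + 1) (y i))
  refine h3.trans (le_of_eq ?_)
  congr 1
  rw [one_mul]
  have h5 : Complex.exp (-(1 / 2 * ∑ x, gg γ β p x * ((∑ i, qh γ p (ini (y i)) x ^ 2 : ℝ) : ℂ)))
      = ∏ i, Complex.exp (-(1 / 2 * ∑ x : CP p, gg γ β p x
        * ((qh γ p (ini (y i)) x ^ 2 : ℝ) : ℂ))) := by
    rw [← Complex.exp_sum]
    congr 1
    rw [sum_neg_distrib, ← mul_sum, sum_comm]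
    congr 2
    refine sum_congr rfl fun x _ => ?_
    push_cast
    rw [mul_sum]
  rw [h5, ← prod_mul_distrib]
  rfl

theorem LT_all (γ β : ℕ → ℝ) (p : ℕ) : LT γ β p := by
  induction p with
  | zero => exact LT_zero γ β
  | succ p ih => exact LT_succ γ β p ih

end Vale.Agent.P367.Lim
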