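import Vale.Agent.P367.Lim.Path

namespace Vale.Agent.P367.Lim

open Finset ComplexConjugate MeasureTheory ProbabilityTheory Vale.Agent.P367.Gap

/-- characteristic function of a linear form in independent standard Gaussians -/
lemma gauss_char {ι : Type*} [Fintype ι] (c : ι → ℝ) :
    ∫ J : ι → ℝ, Complex.exp (-(Complex.I * ((∑ e, c e * J e : ℝ) : ℂ)))
      ∂(Measure.pi fun _ => gaussianReal 0 1) = Complex.exp (-((1 / 2 * ∑ e, c e ^ 2 : ℝ) : ℂ)) := by
  have h1 : ∀ J : ι → ℝ, Complex.exp (-(Complex.I * ((∑ e, c e * J e : ℝ) : ℂ)))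
      = ∏ e, Complex.exp (((-c e : ℝ) : ℂ) * (J e : ℂ) * Complex.I) := by
    intro J
    rw [← Complex.exp_sum]
    congr 1
    push_cast
    rw [mul_sum, ← sum_neg_distrib]
    refine sum_congr rfl fun e _ => ?_
    ring
  simp_rw [h1]
  rw [integral_fintype_prod_eq_prod (f := fun e (x : ℝ) =>
    Complex.exp (((-c e : ℝ) : ℂ) * (x : ℂ) * Complex.I))]
  have h2 : ∀ e, ∫ x : ℝ, Complex.exp (((-c e : ℝ) : ℂ) * (x : ℂ) * Complex.I)
      ∂(gaussianReal 0 1) = Complex.exp (-((1 / 2 * c e ^ 2 : ℝ) : ℂ)) := by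
    intro e
    rw [← charFun_apply_real, charFun_gaussianReal]
    congr 1
    push_cast
    ring
  simp_rw [h2]
  rw [← Complex.exp_sum]
  congr 1
  push_cast
  rw [mul_sum, ← sum_neg_distrib]

variable {V : Type} [Fintype V] [DecidableEq V]

/-- quadratic interaction of a family of contour paths -/
noncomputable def QI (γ : ℕ → ℝ) (p : ℕ) (ξ : V → V → ℝ) (X : V → CP p) : ℝ :=
  ∑ i, ∑ j, if i = j then 0 else (qq γ p (X i) (X j) + ξ i j * (lst (X i) * lst (X j))) ^ 2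

/-- averaged path functional -/
noncomputable def FF (γ β : ℕ → ℝ) (p : ℕ) (s : ℝ) (ξ : V → V → ℝ) (φ : V → CP p → ℂ) : ℂ :=
  ∑ X : V → CP p, (∏ j, wgt β p (X j) * φ j (X j)) *
    Complex.exp (-((s ^ 2 / 4 * QI γ p ξ X : ℝ) : ℂ))

/-- pair energy with ordered couplings -/
noncomputable def EJ (s : ℝ) (J : V × V → ℝ) (ξ : V → V → ℝ) (z : V → Bool) : ℝ :=
  ∑ e : V × V, (s / Real.sqrt 2) * (if e.1 = e.2 then 0 else
    ξ e.1 e.2 * (spin (z e.1) * spin (z e.2))) * J e

/-- linear form coefficients -/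
noncomputable def cf (γ : ℕ → ℝ) (p : ℕ) (s : ℝ) (ξ : V → V → ℝ) (X : V → CP p) (e : V × V) : ℝ :=
  (s / Real.sqrt 2) * (if e.1 = e.2 then 0 else
    (qq γ p (X e.1) (X e.2) + ξ e.1 e.2 * (lst (X e.1) * lst (X e.2))))

lemma half_sum_cf (γ : ℕ → ℝ) (p : ℕ) (s : ℝ) (ξ : V → V → ℝ) (X : V → CP p) :
    1 / 2 * ∑ e, cf γ p s ξ X e ^ 2 = s ^ 2 / 4 * QI γ p ξ X := by
  unfold cf QI
  rw [Fintype.sum_prod_type, mul_sum, mul_sum]
  refine sum_congr rfl fun i _ => ?_
  rw [mul_sum, mul_sum]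
  refine sum_congr rfl fun j _ => ?_
  simp only
  by_cases h : i = j
  · simp [h]
  · simp only [if_neg h]
    rw [mul_pow, div_pow, Real.sq_sqrt (by norm_num)]
    ring

lemma sum_cf_mul (γ : ℕ → ℝ) (p : ℕ) (s : ℝ) (ξ : V → V → ℝ) (X : V → CP p) (J : V × V → ℝ) :
    ∑ e, cf γ p s ξ X e * J e
      = ∑ k : Fin p, γ k * EJ s J (fun _ _ => 1) (fun j => (X j).1 k.castSucc)
        + EJ s J ξ (fun j => (X j).1 (Fin.last p))
        - ∑ k : Fin p, γ k * EJ s J (fun _ _ => 1) (fun j => (X j).2 k.castSucc) := by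
  unfold EJ cf
  simp_rw [mul_sum]
  rw [sum_comm, sum_comm (s := (univ : Finset (Fin p)))
    (f := fun k e => γ ↑k * (s / Real.sqrt 2 * (if e.1 = e.2 then 0 else
      1 * (spin ((X e.1).2 k.castSucc) * spin ((X e.2).2 k.castSucc))) * J e))]
  rw [← sum_add_distrib, ← sum_sub_distrib]
  refine sum_congr rfl fun e _ => ?_
  by_cases h : e.1 = e.2
  · simp [h]
  · simp only [if_neg h, lst, qq]
    rw [mul_add, add_mul, mul_sum, sum_mul, add_sub_right_comm, ← sum_sub_distrib]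
    congr 1
    · refine sum_congr rfl fun k _ => ?_
      ring

lemma norm_exp_neg_I (x : ℝ) : ‖Complex.exp (-(Complex.I * (x : ℂ)))‖ = 1 := by
  rw [show -(Complex.I * (x : ℂ)) = ((-x : ℝ) : ℂ) * Complex.I by push_cast; ring]
  exact Complex.norm_exp_ofReal_mul_I _

/-- for each coupling realisation the path sum is bounded by one -/
lemma norm_inner_le (γ β : ℕ → ℝ) (p : ℕ) (s : ℝ) (ξ : V → V → ℝ) (φ : V → CP p → ℂ)
    (U W : V → Fin (p + 1) → Bool → ℂ) (hU : ∀ j k b, ‖U j k b‖ ≤ 1) (hW : ∀ j k b, ‖W j k b‖ ≤ 1)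
    (hφ : ∀ j x, φ j x = (∏ k, U j k (x.1 k)) * ∏ k, W j k (x.2 k)) (J : V × V → ℝ) :
    ‖∑ X : V → CP p, (∏ j, wgt β p (X j) * φ j (X j)) *
      Complex.exp (-(Complex.I * ((∑ e, cf γ p s ξ X e * J e : ℝ) : ℂ)))‖ ≤ 1 := by
  classical
  let θ : ℕ → (V → Bool) → ℝ := fun k z =>
    if k < p then γ k * EJ s J (fun _ _ => 1) z else EJ s J ξ z
  let θ' : ℕ → (V → Bool) → ℝ := fun k z =>
    if k < p then γ k * EJ s J (fun _ _ => 1) z else 0
  let u : ℕ → (V → Bool) → ℂ := fun k z =>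
    (if h : k < p + 1 then ∏ j, U j ⟨k, h⟩ (z j) else 1) * Complex.exp (-(Complex.I * (θ k z : ℂ)))
  let v : ℕ → (V → Bool) → ℂ := fun k z =>
    (if h : k < p + 1 then ∏ j, conj (W j ⟨k, h⟩ (z j)) else 1)
      * Complex.exp (-(Complex.I * (θ' k z : ℂ)))
  have hu : ∀ k z, ‖u k z‖ ≤ 1 := by
    intro k z
    simp only [u, norm_mul, norm_exp_neg_I, mul_one]
    split_ifs
    · rw [norm_prod]
      exact prod_le_one (fun _ _ => norm_nonneg _) fun j _ => hU _ _ _
    · simp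
  have hv : ∀ k z, ‖v k z‖ ≤ 1 := by
    intro k z
    simp only [v, norm_mul, norm_exp_neg_I, mul_one]
    split_ifs
    · rw [norm_prod]
      refine prod_le_one (fun _ _ => norm_nonneg _) fun j _ => ?_
      rw [RCLike.norm_conj]
      exact hW _ _ _
    · simp
  have key := norm_sum_paths_le (V := V) β p u v hu hv
  convert key using 3 with X
  rw [prod_mul_distrib, mul_assoc]
  congr 1
  have e1 : ∏ k : Fin (p + 1), u k (fun j => (X j).1 k)
      = (∏ j, ∏ k, U j k ((X j).1 k)) * Complex.exp (-(Complex.I *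
        ((∑ k : Fin p, γ k * EJ s J (fun _ _ => 1) (fun j => (X j).1 k.castSucc)
          + EJ s J ξ (fun j => (X j).1 (Fin.last p)) : ℝ) : ℂ))) := by
    simp only [u]
    rw [prod_mul_distrib, ← Complex.exp_sum]
    congr 1
    · rw [prod_comm]
      refine prod_congr rfl fun k _ => ?_
      rw [dif_pos k.2]
    · congr 1
      rw [sum_neg_distrib, ← mul_sum]
      congr 2
      rw [← Complex.ofReal_sum]
      congr 1
      rw [Fin.sum_univ_castSucc]
      congr 1
      · refine sum_congr rfl fun k _ => ?_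
        simp [θ]
      · simp [θ]
  have e2 : ∏ k : Fin (p + 1), conj (v k (fun j => (X j).2 k))
      = (∏ j, ∏ k, W j k ((X j).2 k)) * Complex.exp ((Complex.I *
        ((∑ k : Fin p, γ k * EJ s J (fun _ _ => 1) (fun j => (X j).2 k.castSucc) : ℝ) : ℂ))) := by
    simp only [v, map_mul]
    rw [prod_mul_distrib]
    congr 1
    · rw [prod_comm]
      refine prod_congr rfl fun k _ => ?_
      rw [dif_pos k.2, map_prod]
      simp
    · have : ∀ k : Fin (p + 1), conj (Complex.exp (-(Complex.I * (θ' k (fun j => (X j).2 k) : ℂ))))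
          = Complex.exp (Complex.I * (θ' k (fun j => (X j).2 k) : ℂ)) := by
        intro k
        rw [← Complex.exp_conj, map_neg, map_mul, Complex.conj_I, Complex.conj_ofReal]
        congr 1; ring
      simp_rw [this]
      rw [← Complex.exp_sum, ← mul_sum]
      congr 2
      rw [← Complex.ofReal_sum]
      congr 1
      rw [Fin.sum_univ_castSucc]
      simp [θ']
  rw [e1, e2]
  have e3 : ∏ j, φ j (X j) = (∏ j, ∏ k, U j k ((X j).1 k)) * ∏ j, ∏ k, W j k ((X j).2 k) := by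
    rw [← prod_mul_distrib]
    exact prod_congr rfl fun j _ => hφ j (X j)
  rw [e3, sum_cf_mul]
  rw [mul_mul_mul_comm, ← Complex.exp_add]
  congr 2
  push_cast
  ring

lemma integrable_exp_lin {ι : Type*} [Fintype ι] (c : ι → ℝ) :
    Integrable (fun J : ι → ℝ => Complex.exp (-(Complex.I * ((∑ e, c e * J e : ℝ) : ℂ))))
      (Measure.pi fun _ => gaussianReal 0 1) := by
  refine (integrable_const (1 : ℝ)).mono' ?_ ?_
  · refine Continuous.aestronglyMeasurable ?_
    fun_prop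
  · exact Filter.Eventually.of_forall fun J => (norm_exp_neg_I _).le

/-- Gaussian representation of `FF` -/
lemma FF_eq_integral (γ β : ℕ → ℝ) (p : ℕ) (s : ℝ) (ξ : V → V → ℝ) (φ : V → CP p → ℂ) :
    FF γ β p s ξ φ = ∫ J : V × V → ℝ, (∑ X : V → CP p, (∏ j, wgt β p (X j) * φ j (X j)) *
      Complex.exp (-(Complex.I * ((∑ e, cf γ p s ξ X e * J e : ℝ) : ℂ))))
        ∂(Measure.pi fun _ => gaussianReal 0 1) := by
  rw [integral_finsetSum]
  · unfold FF
    refine sum_congr rfl fun X _ => ?_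
    rw [integral_const_mul, gauss_char, half_sum_cf]
  · intro X _
    exact (integrable_exp_lin _).const_mul _

/-- unitarity bound for product-form one-site factors -/
theorem norm_FF_le (γ β : ℕ → ℝ) (p : ℕ) (s : ℝ) (ξ : V → V → ℝ) (φ : V → CP p → ℂ)
    (U W : V → Fin (p + 1) → Bool → ℂ) (hU : ∀ j k b, ‖U j k b‖ ≤ 1) (hW : ∀ j k b, ‖W j k b‖ ≤ 1)
    (hφ : ∀ j x, φ j x = (∏ k, U j k (x.1 k)) * ∏ k, W j k (x.2 k)) :
    ‖FF γ β p s ξ φ‖ ≤ 1 := by
  rw [FF_eq_integral]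
  have := norm_integral_le_of_norm_le_const (μ := Measure.pi fun _ : V × V => gaussianReal 0 1)
    (Filter.Eventually.of_forall fun J => norm_inner_le γ β p s ξ φ U W hU hW hφ J)
  simpa using this

end Vale.Agent.P367.Lim
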