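import Vale.Agent.P367.Lim.Model5

namespace Vale.Agent.P367.Lim

open Finset ComplexConjugate MeasureTheory ProbabilityTheory Filter Topology ENNReal
  Vale.Agent.P367.Gap

variable {n : ℕ}

lemma sum_inc_site (e : Pair n) : ∑ i : Fin n, inc i e = 2 := by
  have h : ∀ i : Fin n, inc i e = (if e.1.1 = i then (1 : ℝ) else 0)
      + (if e.1.2 = i then (1 : ℝ) else 0) := by
    intro i
    unfold inc
    have hne : e.1.1 ≠ e.1.2 := ne_of_lt e.2
    by_cases h1 : e.1.1 = i
    · have h2 : e.1.2 ≠ i := fun h2 => hne (h1.trans h2.symm)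
      simp [h1, h2]
    · by_cases h2 : e.1.2 = i
      · simp [h1, h2]
      · simp [h1, h2]
  simp_rw [h, sum_add_distrib]
  simp
  norm_num

lemma sum_tt (s : Conf n) (J : Pair n → ℝ) : ∑ i : Fin n, tt (uvec i) s J = 2 * skEnergy J s := by
  unfold tt uvec skEnergy
  rw [sum_comm]
  rw [mul_sum, mul_sum]
  refine sum_congr rfl fun e _ => ?_
  have h : ∑ i : Fin n, (Real.sqrt n)⁻¹ * (inc i e * chi s e) * J e
      = (∑ i : Fin n, inc i e) * ((Real.sqrt n)⁻¹ * chi s e * J e) := by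
    rw [sum_mul]
    refine sum_congr rfl fun i _ => ?_
    ring
  rw [h, sum_inc_site]
  unfold chi
  ring

lemma integrable_tt_w (p : ℕ) (γ β : Fin p → ℝ) (i : Fin n) (s : Conf n) : Integrable
    (fun J : Pair n → ℝ => ‖qaoaState J p γ β s‖ ^ 2 * tt (uvec i) s J) (couplingLaw n) := by
  refine (integrable_abs_tt p γ β i s).mono' ?_ (Filter.Eventually.of_forall fun J => ?_)
  · apply Measurable.aestronglyMeasurable
    have h3 := measurable_tt (S := Conf n) (uvec i) s
    exact (((measurable_qaoaState p γ β s)).norm.pow_const 2).mul h3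
  · rw [norm_mul, Real.norm_eq_abs, Real.norm_eq_abs, abs_of_nonneg (a := ‖_‖ ^ 2) (by positivity)]

/-- mean aligned field -/
noncomputable def amean (n p : ℕ) (γ β : Fin p → ℝ) : ℝ :=
  (n : ℝ)⁻¹ * ∑ i : Fin n, ∫ J : Pair n → ℝ, (∑ s, ‖qaoaState J p γ β s‖ ^ 2 * tt (uvec i) s J)
    ∂(couplingLaw n)

lemma qaoaValue_eq_amean (n p : ℕ) (γ β : Fin p → ℝ) :
    qaoaValue n p γ β = 1 / 2 * amean n p γ β := by
  unfold qaoaValue amean
  rw [← integral_finsetSum _ fun i _ => integrable_finsetSum _ fun s _ => integrable_tt_w p γ β i s]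
  rw [mul_left_comm]
  congr 1
  rw [← integral_const_mul]
  congr 1
  funext J
  rw [qaoaMean_eq, sum_comm, mul_sum]
  refine sum_congr rfl fun s _ => ?_
  rw [← mul_sum, sum_tt]
  ring

lemma sq_le_exp (x : ℝ) : x ^ 2 ≤ 2 * (Real.exp (-(1 * x)) + Real.exp (-(-1 * x))) := by
  rcases le_total 0 x with h | h
  · have h1 := Real.quadratic_le_exp_of_nonneg h
    have h2 := Real.exp_pos (-(1 * x))
    have h3 : -(-1 * x) = x := by ring
    rw [h3]
    nlinarith
  · have h1 := Real.quadratic_le_exp_of_nonneg (x := -x) (by linarith)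
    have h2 := Real.exp_pos (-(-1 * x))
    have h3 : -(1 * x) = -x := by ring
    rw [h3]
    nlinarith

/-- shifted amplitudes -/
lemma shift_bound (p : ℕ) (γ β : Fin p → ℝ) (i : Fin n) (J : Pair n → ℝ) (r : ℝ) :
    ∑ s, ‖qaoaState (J - r • uvec i s) p γ β s‖ ^ 2 ≤ Real.exp ((∑ k, |γ k|) * |r|) ^ 2 := by
  set γ' := extA γ with hγ'
  set β' := extA β with hβ'
  set D : ℕ → Hil n →ₗ[ℂ] Hil n := fun k => matL (mixU n (β' k)) with hD
  have hDn : ∀ k v, ‖D k v‖ = ‖v‖ := fun k v => norm_matL _ (mixU_unitary _) v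
  have hsumγ : ∑ l ∈ range p, |γ' l| = ∑ k, |γ k| := by
    rw [← Fin.sum_univ_eq_sum_range (fun l => |γ' l|) p]
    refine sum_congr rfl fun k _ => ?_
    rw [hγ', extA_apply]
  have hψc : ∀ (J : Pair n → ℝ) s, qaoaState J p γ β s = circ D γ' (cE J) (plusH n) p s :=
    fun J s => state_circ J p γ β s
  have hG : ∀ s, Fsh D γ' (skEnergy J) i (plusH n) p (r : ℂ) s
      = qaoaState (J - r • uvec i s) p γ β s := by
    intro s
    rw [hψc]
    have h1 : (fun z => ((skEnergy J z : ℝ) : ℂ) - (r : ℂ) * ((Rov i s z : ℝ) : ℂ))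
        = cE (J - r • uvec i s) := by
      funext z
      unfold cE
      rw [skEnergy_shift]
      push_cast
      ring
    show circ D γ' (fun z => ((skEnergy J z : ℝ) : ℂ) - (r : ℂ) * ((Rov i s z : ℝ) : ℂ))
      (plusH n) p s = _
    rw [h1]
  have h1 := norm_Fsh_le D (fun k v => (hDn k v).le) γ' (skEnergy J) i (plusH n) p (r : ℂ)
  rw [norm_plusH, mul_one, EuclideanSpace.norm_eq, hsumγ, Complex.norm_real, Real.norm_eq_abs] at h1
  have h2 := pow_le_pow_left₀ (Real.sqrt_nonneg _) h1 2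
  rw [Real.sq_sqrt (Finset.sum_nonneg fun s _ => by positivity)] at h2
  simpa only [hG] using h2

/-- uniform second moment at fixed angles -/
lemma second_moment (hn0 : 0 < n) (p : ℕ) (γ β : Fin p → ℝ) (i : Fin n) :
    ∫ J : Pair n → ℝ, (∑ s, ‖qaoaState J p γ β s‖ ^ 2 *
      (2 * (Real.exp (-(1 * tt (uvec i) s J)) + Real.exp (-(-1 * tt (uvec i) s J)))))
      ∂(couplingLaw n) ≤ 4 * Real.exp (1 / 2 + 2 * ∑ k, |γ k|) := by
  have hκ1 : 1 - (n : ℝ)⁻¹ ≤ 1 := by
    have : 0 ≤ (n : ℝ)⁻¹ := by positivity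
    linarith
  have hE : ∀ r : ℝ, Emom (fun J : Pair n → ℝ => qaoaState J p γ β) (uvec i) r
      ≤ Real.exp (r ^ 2 / 2 + 2 * (∑ k, |γ k|) * |r|) := fun r =>
    Emom_le hκ1 (fun s => uvec_sq hn0 i s) (fun s => measurable_qaoaState p γ β s)
      (fun J => norm_qaoaState J p γ β) (fun J r => shift_bound p γ β i J r) r
  have iw : ∀ (r : ℝ) (s : Conf n), Integrable
      (fun J : Pair n → ℝ => ‖qaoaState J p γ β s‖ ^ 2 * Real.exp (-(r * tt (uvec i) s J)))
      (couplingLaw n) := fun r s =>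
    integrable_weight (fun J => qaoaState J p γ β) (uvec i) (fun s => measurable_qaoaState p γ β s)
      (fun J => norm_qaoaState J p γ β) r s
  have e1 : ∫ J : Pair n → ℝ, (∑ s, ‖qaoaState J p γ β s‖ ^ 2 *
      (2 * (Real.exp (-(1 * tt (uvec i) s J)) + Real.exp (-(-1 * tt (uvec i) s J)))))
      ∂(couplingLaw n)
      = 2 * (Emom (fun J : Pair n → ℝ => qaoaState J p γ β) (uvec i) 1
        + Emom (fun J : Pair n → ℝ => qaoaState J p γ β) (uvec i) (-1)) := by
    have hEm : ∀ r : ℝ, Emom (fun J : Pair n → ℝ => qaoaState J p γ β) (uvec i) r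
        = ∫ J : Pair n → ℝ, (∑ s, ‖qaoaState J p γ β s‖ ^ 2 * Real.exp (-(r * tt (uvec i) s J)))
          ∂(couplingLaw n) := fun r => rfl
    rw [hEm, hEm, ← integral_add (integrable_finsetSum _ fun s _ => iw 1 s)
      (integrable_finsetSum _ fun s _ => iw (-1) s), ← integral_const_mul]
    refine integral_congr_ae (Eventually.of_forall fun J => ?_)
    simp only
    rw [← sum_add_distrib, mul_sum]
    refine sum_congr rfl fun s _ => ?_
    ring
  rw [e1]
  have h1 := hE 1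
  have h2 := hE (-1)
  rw [abs_one, mul_one] at h1
  rw [abs_neg, abs_one, mul_one] at h2
  have h3 : (1 : ℝ) ^ 2 / 2 = 1 / 2 := by norm_num
  have h4 : (-1 : ℝ) ^ 2 / 2 = 1 / 2 := by norm_num
  rw [h3] at h1
  rw [h4] at h2
  linarith

lemma exp_second_order (θ : ℝ) :
    ‖Complex.exp (-(Complex.I * (θ : ℂ))) - 1 + Complex.I * θ‖ ≤ 3 * θ ^ 2 := by
  have hn : ‖-(Complex.I * (θ : ℂ))‖ = |θ| := by
    rw [norm_neg, norm_mul, Complex.norm_I, one_mul, Complex.norm_real, Real.norm_eq_abs]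
  rcases le_total |θ| 1 with h | h
  · have h1 := Complex.norm_exp_sub_one_sub_id_le (x := -(Complex.I * (θ : ℂ))) (by rw [hn]; exact h)
    rw [hn, sq_abs] at h1
    rw [sub_neg_eq_add] at h1
    have : 0 ≤ θ ^ 2 := sq_nonneg θ
    linarith
  · have h1 : ‖Complex.exp (-(Complex.I * (θ : ℂ))) - 1 + Complex.I * θ‖ ≤ 1 + 1 + |θ| := by
      refine (norm_add_le _ _).trans ?_
      have h2 : ‖Complex.exp (-(Complex.I * (θ : ℂ))) - 1‖ ≤ 1 + 1 := by
        refine (norm_sub_le _ _).trans ?_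
        rw [norm_exp_neg_I, norm_one]
      have h3 : ‖Complex.I * (θ : ℂ)‖ = |θ| := by
        rw [norm_mul, Complex.norm_I, one_mul, Complex.norm_real, Real.norm_eq_abs]
      rw [h3]
      linarith
    have h2 : θ ^ 2 = |θ| * |θ| := by rw [← sq_abs, sq]
    rw [h2]
    nlinarith

/-- the mean is determined by the characteristic function, uniformly in `n` -/
lemma char_mean (hn0 : 0 < n) (p : ℕ) (γ β : Fin p → ℝ) (ξ : ℝ) :
    ‖(∫ x, Complex.exp (-(Complex.I * ξ * x)) ∂(alf n p γ β)) - 1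
      + Complex.I * ξ * (amean n p γ β : ℂ)‖
      ≤ 12 * Real.exp (1 / 2 + 2 * ∑ k, |γ k|) * ξ ^ 2 := by
  have hnr : (0 : ℝ) < n := by exact_mod_cast hn0
  have hcont : Continuous fun x : ℝ => Complex.exp (-(Complex.I * ξ * x)) := by fun_prop
  have hb : ∀ x : ℝ, ‖Complex.exp (-(Complex.I * ξ * x))‖ ≤ 1 := by
    intro x
    have : -(Complex.I * (ξ : ℂ) * (x : ℂ)) = -(Complex.I * ((ξ * x : ℝ) : ℂ)) := by
      push_cast; ring
    rw [this, norm_exp_neg_I]
  have h := integral_alf (n := n) p γ β (fun x : ℝ => Complex.exp (-(Complex.I * ξ * x)))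
    hcont.stronglyMeasurable 1 hb
  rw [h]
  have i1 : ∀ (i : Fin n) (s : Conf n), Integrable (fun J : Pair n → ℝ =>
      (‖qaoaState J p γ β s‖ ^ 2) • Complex.exp (-(Complex.I * ξ * ((tt (uvec i) s J : ℝ) : ℂ))))
      (couplingLaw n) := fun i s =>
    integrable_alf1_term p γ β i s (fun x : ℝ => Complex.exp (-(Complex.I * ξ * x)))
      hcont.stronglyMeasurable 1 hb
  have i2 : ∀ (i : Fin n) (s : Conf n), Integrable (fun J : Pair n → ℝ =>
      ((‖qaoaState J p γ β s‖ ^ 2 * tt (uvec i) s J : ℝ) : ℂ)) (couplingLaw n) := fun i s =>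
    (integrable_tt_w p γ β i s).ofReal
  have key : ∀ i : Fin n, ‖(∫ J, (∑ s, (‖qaoaState J p γ β s‖ ^ 2) •
      Complex.exp (-(Complex.I * ξ * ((tt (uvec i) s J : ℝ) : ℂ)))) ∂(couplingLaw n)) - 1
      + Complex.I * ξ * ((∫ J : Pair n → ℝ, (∑ s, ‖qaoaState J p γ β s‖ ^ 2 * tt (uvec i) s J)
        ∂(couplingLaw n) : ℝ) : ℂ)‖ ≤ 12 * Real.exp (1 / 2 + 2 * ∑ k, |γ k|) * ξ ^ 2 := by
    intro i
    have e1 : (∫ J, (∑ s, (‖qaoaState J p γ β s‖ ^ 2) •
        Complex.exp (-(Complex.I * ξ * ((tt (uvec i) s J : ℝ) : ℂ)))) ∂(couplingLaw n)) - 1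
        + Complex.I * ξ * ((∫ J : Pair n → ℝ, (∑ s, ‖qaoaState J p γ β s‖ ^ 2 * tt (uvec i) s J)
        ∂(couplingLaw n) : ℝ) : ℂ)
        = ∫ J, (∑ s, (‖qaoaState J p γ β s‖ ^ 2 : ℝ) •
          (Complex.exp (-(Complex.I * ((ξ * tt (uvec i) s J : ℝ) : ℂ))) - 1
            + Complex.I * ((ξ * tt (uvec i) s J : ℝ) : ℂ))) ∂(couplingLaw n) := by
      rw [← integral_complex_ofReal]
      have e2 : (1 : ℂ) = ∫ _ : Pair n → ℝ, (1 : ℂ) ∂(couplingLaw n) := by simp
      conv_lhs => rw [e2]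
      rw [← integral_sub (integrable_finsetSum _ fun s _ => i1 i s) (integrable_const _),
        ← integral_const_mul, ← integral_add]
      · refine integral_congr_ae (Eventually.of_forall fun J => ?_)
        simp only
        have e3 : (1 : ℂ) = ∑ s, ((‖qaoaState J p γ β s‖ ^ 2 : ℝ) : ℂ) := by
          rw [← Complex.ofReal_sum, sum_state_sq, Complex.ofReal_one]
        conv_lhs => rw [e3]
        push_cast
        rw [← sum_sub_distrib, mul_sum, ← sum_add_distrib]
        refine sum_congr rfl fun s _ => ?_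
        rw [Complex.real_smul, Complex.real_smul]
        push_cast
        have e4 : -(Complex.I * (ξ : ℂ) * ((tt (uvec i) s J : ℝ) : ℂ))
            = -(Complex.I * ((ξ : ℂ) * ((tt (uvec i) s J : ℝ) : ℂ))) := by ring
        rw [e4]
        ring
      · exact (integrable_finsetSum _ fun s _ => i1 i s).sub (integrable_const _)
      · refine Integrable.const_mul ?_ _
        have := integrable_finsetSum (univ : Finset (Conf n)) fun s _ => i2 i s
        refine this.congr (Eventually.of_forall fun J => ?_)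
        simp only
        push_cast
        rfl
    rw [e1]
    refine (norm_integral_le_integral_norm _).trans ?_
    have h2 := second_moment hn0 p γ β i
    have iw : ∀ (r : ℝ) (s : Conf n), Integrable
        (fun J : Pair n → ℝ => ‖qaoaState J p γ β s‖ ^ 2 * Real.exp (-(r * tt (uvec i) s J)))
        (couplingLaw n) := fun r s =>
      integrable_weight (fun J => qaoaState J p γ β) (uvec i)
        (fun s => measurable_qaoaState p γ β s) (fun J => norm_qaoaState J p γ β) r s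
    have iq : Integrable (fun J : Pair n → ℝ => 3 * ξ ^ 2 * (∑ s, ‖qaoaState J p γ β s‖ ^ 2 *
      (2 * (Real.exp (-(1 * tt (uvec i) s J)) + Real.exp (-(-1 * tt (uvec i) s J))))))
      (couplingLaw n) := by
      refine Integrable.const_mul (integrable_finsetSum _ fun s _ => ?_) _
      have := ((iw 1 s).add (iw (-1) s)).const_mul 2
      refine this.congr (Eventually.of_forall fun J => ?_)
      simp only [Pi.add_apply]
      ring
    calc ∫ J, ‖∑ s, (‖qaoaState J p γ β s‖ ^ 2 : ℝ) •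
          (Complex.exp (-(Complex.I * ((ξ * tt (uvec i) s J : ℝ) : ℂ))) - 1
            + Complex.I * ((ξ * tt (uvec i) s J : ℝ) : ℂ))‖ ∂(couplingLaw n)
        ≤ ∫ J, 3 * ξ ^ 2 * (∑ s, ‖qaoaState J p γ β s‖ ^ 2 *
          (2 * (Real.exp (-(1 * tt (uvec i) s J)) + Real.exp (-(-1 * tt (uvec i) s J)))))
          ∂(couplingLaw n) := by
          refine integral_mono_of_nonneg (Eventually.of_forall fun J => norm_nonneg _) iq
            (Eventually.of_forall fun J => ?_)
          simp only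
          refine (norm_sum_le _ _).trans ?_
          rw [mul_sum]
          refine sum_le_sum fun s _ => ?_
          rw [norm_smul, Real.norm_eq_abs, abs_of_nonneg (by positivity)]
          have h3 := exp_second_order (ξ * tt (uvec i) s J)
          have h4 := sq_le_exp (tt (uvec i) s J)
          calc ‖qaoaState J p γ β s‖ ^ 2 *
                ‖Complex.exp (-(Complex.I * ((ξ * tt (uvec i) s J : ℝ) : ℂ))) - 1
                  + Complex.I * ((ξ * tt (uvec i) s J : ℝ) : ℂ)‖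
              ≤ ‖qaoaState J p γ β s‖ ^ 2 * (3 * (ξ * tt (uvec i) s J) ^ 2) :=
                mul_le_mul_of_nonneg_left h3 (by positivity)
            _ = 3 * ξ ^ 2 * (‖qaoaState J p γ β s‖ ^ 2 * (tt (uvec i) s J) ^ 2) := by ring
            _ ≤ _ := by
                refine mul_le_mul_of_nonneg_left ?_ (by positivity)
                exact mul_le_mul_of_nonneg_left h4 (by positivity)
      _ = 3 * ξ ^ 2 * ∫ J, (∑ s, ‖qaoaState J p γ β s‖ ^ 2 *
          (2 * (Real.exp (-(1 * tt (uvec i) s J)) + Real.exp (-(-1 * tt (uvec i) s J)))))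
          ∂(couplingLaw n) := integral_const_mul _ _
      _ ≤ 3 * ξ ^ 2 * (4 * Real.exp (1 / 2 + 2 * ∑ k, |γ k|)) :=
          mul_le_mul_of_nonneg_left h2 (by positivity)
      _ = _ := by ring
  have e5 : ((n : ℝ)⁻¹ • ∑ i : Fin n, ∫ J, (∑ s, (‖qaoaState J p γ β s‖ ^ 2) •
      Complex.exp (-(Complex.I * ξ * ((tt (uvec i) s J : ℝ) : ℂ)))) ∂(couplingLaw n)) - 1
      + Complex.I * ξ * (amean n p γ β : ℂ)
      = (n : ℝ)⁻¹ • ∑ i : Fin n, ((∫ J, (∑ s, (‖qaoaState J p γ β s‖ ^ 2) •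
      Complex.exp (-(Complex.I * ξ * ((tt (uvec i) s J : ℝ) : ℂ)))) ∂(couplingLaw n)) - 1
      + Complex.I * ξ * ((∫ J : Pair n → ℝ, (∑ s, ‖qaoaState J p γ β s‖ ^ 2 * tt (uvec i) s J)
        ∂(couplingLaw n) : ℝ) : ℂ)) := by
    rw [sum_add_distrib, sum_sub_distrib, ← mul_sum]
    unfold amean
    simp only [Complex.real_smul, sum_const, card_univ, Fintype.card_fin, nsmul_eq_mul, mul_one]
    push_cast
    have : (n : ℂ) ≠ 0 := by exact_mod_cast hn0.ne'
    field_simp
  rw [e5, norm_smul, norm_inv, Real.norm_natCast]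
  calc (n : ℝ)⁻¹ * ‖∑ i : Fin n, ((∫ J, (∑ s, (‖qaoaState J p γ β s‖ ^ 2) •
      Complex.exp (-(Complex.I * ξ * ((tt (uvec i) s J : ℝ) : ℂ)))) ∂(couplingLaw n)) - 1
      + Complex.I * ξ * ((∫ J : Pair n → ℝ, (∑ s, ‖qaoaState J p γ β s‖ ^ 2 * tt (uvec i) s J)
        ∂(couplingLaw n) : ℝ) : ℂ))‖
      ≤ (n : ℝ)⁻¹ * ∑ _i : Fin n, 12 * Real.exp (1 / 2 + 2 * ∑ k, |γ k|) * ξ ^ 2 := by
        refine mul_le_mul_of_nonneg_left ?_ (by positivity)
        exact (norm_sum_le _ _).trans (sum_le_sum fun i _ => key i)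
    _ = _ := by
        rw [sum_const, card_univ, Fintype.card_fin, nsmul_eq_mul, ← mul_assoc,
          inv_mul_cancel₀ hnr.ne', one_mul]

end Vale.Agent.P367.Lim
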