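import Vale.Agent.P367.Lim.Smooth

namespace Vale.Agent.P367.Lim

open Finset Filter Topology MeasureTheory ProbabilityTheory
open scoped NNReal

lemma exists_K (N : ℕ) (Y : ℝ) (hY : 0 ≤ Y) : ∃ K : ℕ, 1 ≤ K ∧ Y ≤ K ∧
    49 * (K : ℝ) * ((1 + Real.exp (30 * K)) ^ N * Real.exp (Y ^ 2 / 2)) *
      (Real.exp (-(25 * K ^ 2 / 2)) + 2 * (N * Real.exp (-((K - Y) ^ 2 / 4)))) ≤ 1 / 8 := by
  have h1 : Tendsto (fun x : ℝ => x ^ 1 * Real.exp (-x)) atTop (𝓝 0) :=
    Real.tendsto_pow_mul_exp_neg_atTop_nhds_zero 1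
  have h2 := h1.comp (tendsto_natCast_atTop_atTop (R := ℝ))
  set D : ℝ := 49 * 2 ^ N * Real.exp (Y ^ 2 / 2) * (1 + 2 * N) with hD
  have hD0 : 0 < D := by positivity
  have h3 := h2.const_mul D
  rw [mul_zero] at h3
  have h4 : ∀ᶠ K : ℕ in atTop, D * ((fun x : ℝ => x ^ 1 * Real.exp (-x)) ∘ Nat.cast) K < 1 / 8 :=
    h3.eventually_lt_const (by norm_num)
  have h5 : ∀ᶠ K : ℕ in atTop, 2 * Y + 120 * N + 4 ≤ (K : ℝ) :=
    (tendsto_natCast_atTop_atTop (R := ℝ)).eventually_ge_atTop _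
  obtain ⟨K, hK4, hK5⟩ := (h4.and h5).exists
  have hN : (0 : ℝ) ≤ N := Nat.cast_nonneg N
  have hK1 : (4 : ℝ) ≤ K := by linarith
  refine ⟨K, ?_, by linarith, ?_⟩
  · have : (1 : ℝ) ≤ K := by linarith
    exact_mod_cast this
  · simp only [Function.comp, pow_one] at hK4
    have hpow : (1 + Real.exp (30 * K)) ^ N ≤ 2 ^ N * Real.exp (30 * K * N) := by
      have h6 : 1 + Real.exp (30 * K) ≤ 2 * Real.exp (30 * (K : ℝ)) := by
        have : 1 ≤ Real.exp (30 * (K : ℝ)) := Real.one_le_exp (by linarith)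
        linarith
      calc (1 + Real.exp (30 * K)) ^ N ≤ (2 * Real.exp (30 * (K : ℝ))) ^ N := by gcongr
        _ = 2 ^ N * Real.exp (30 * K * N) := by
            rw [mul_pow, ← Real.exp_nat_mul]
            congr 2
            ring
    have he1 : Real.exp (30 * K * N) * Real.exp (-(25 * (K : ℝ) ^ 2 / 2)) ≤ Real.exp (-K) := by
      rw [← Real.exp_add]
      apply Real.exp_le_exp.2
      nlinarith
    have he2 : Real.exp (30 * K * N) * Real.exp (-(((K : ℝ) - Y) ^ 2 / 4)) ≤ Real.exp (-K) := by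
      rw [← Real.exp_add]
      apply Real.exp_le_exp.2
      nlinarith
    calc 49 * (K : ℝ) * ((1 + Real.exp (30 * K)) ^ N * Real.exp (Y ^ 2 / 2)) *
          (Real.exp (-(25 * K ^ 2 / 2)) + 2 * (N * Real.exp (-((K - Y) ^ 2 / 4))))
        ≤ 49 * (K : ℝ) * ((2 ^ N * Real.exp (30 * K * N)) * Real.exp (Y ^ 2 / 2)) *
          (Real.exp (-(25 * K ^ 2 / 2)) + 2 * (N * Real.exp (-((K - Y) ^ 2 / 4)))) := by
          gcongr
      _ = 49 * (K : ℝ) * 2 ^ N * Real.exp (Y ^ 2 / 2) *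
          (Real.exp (30 * K * N) * Real.exp (-(25 * (K : ℝ) ^ 2 / 2))
            + 2 * N * (Real.exp (30 * K * N) * Real.exp (-(((K : ℝ) - Y) ^ 2 / 4)))) := by ring
      _ ≤ 49 * (K : ℝ) * 2 ^ N * Real.exp (Y ^ 2 / 2) *
          (Real.exp (-K) + 2 * N * Real.exp (-K)) := by gcongr
      _ = D * (K * Real.exp (-K)) := by rw [hD]; ring
      _ ≤ 1 / 8 := hK4.le

section

variable {ι : Type} [Fintype ι]

lemma integrable_cexp_quad (V : ℝ≥0) (w : ℂ) :
    Integrable (fun x : ℝ => Complex.exp (x * w - (x : ℂ) ^ 2 / 2)) (gaussianReal 0 V) := by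
  refine (integrable_const (Real.exp (w.re ^ 2 / 2))).mono' ?_ ?_
  · exact (Continuous.aestronglyMeasurable (by fun_prop))
  · refine Eventually.of_forall fun x => ?_
    rw [Complex.norm_exp]
    apply Real.exp_le_exp.2
    have : ((x : ℂ) * w - (x : ℂ) ^ 2 / 2).re = x * w.re - x ^ 2 / 2 := by
      have h : ((x : ℂ) ^ 2 / 2) = (((x ^ 2 / 2 : ℝ)) : ℂ) := by push_cast; rfl
      rw [h, Complex.sub_re, Complex.ofReal_re]
      simp
    rw [this]
    nlinarith [sq_nonneg (x - w.re)]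

lemma tendsto_smooth (V : ℝ≥0) (κ : ℝ)
    (hκ : ∀ w : ℂ, ∫ x : ℝ, Complex.exp (x * w - (x : ℂ) ^ 2 / 2) ∂(gaussianReal 0 V)
      = κ * Complex.exp (((V / (2 * (1 + V)) : ℝ) : ℂ) * w ^ 2))
    (c μ : ι → ℂ) (lam : ℕ → Measure ℝ) (hlam : ∀ n, IsProbabilityMeasure (lam n))
    (hconv : ∀ ξ : ℝ, Tendsto (fun n => ∫ x, Complex.exp (-(Complex.I * ξ * x)) ∂(lam n)) atTop
      (𝓝 (∑ j, c j * Complex.exp (-(ξ * μ j) - (ξ : ℂ) ^ 2 / 2)))) (y : ℝ) :
    Tendsto (fun n => ((∫ x, Real.exp (-(V * (x - y) ^ 2 / 2)) ∂(lam n) : ℝ) : ℂ)) atTop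
      (𝓝 (∑ j, c j * (κ * Complex.exp (((V / (2 * (1 + V)) : ℝ) : ℂ)
        * (Complex.I * y - μ j) ^ 2)))) := by
  have h1 : ∀ n, ((∫ x, Real.exp (-(V * (x - y) ^ 2 / 2)) ∂(lam n) : ℝ) : ℂ)
      = ∫ ξ : ℝ, Complex.exp (Complex.I * ξ * y) *
          (∫ x, Complex.exp (-(Complex.I * ξ * x)) ∂(lam n)) ∂(gaussianReal 0 V) := fun n => by
    have := hlam n
    exact smooth_eq (lam n) V y
  simp_rw [h1]
  have h2 : ∑ j, c j * (κ * Complex.exp (((V / (2 * (1 + V)) : ℝ) : ℂ)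
        * (Complex.I * y - μ j) ^ 2))
      = ∫ ξ : ℝ, Complex.exp (Complex.I * ξ * y) *
        (∑ j, c j * Complex.exp (-(ξ * μ j) - (ξ : ℂ) ^ 2 / 2)) ∂(gaussianReal 0 V) := by
    have h3 : ∀ ξ : ℝ, Complex.exp (Complex.I * ξ * y) *
        (∑ j, c j * Complex.exp (-(ξ * μ j) - (ξ : ℂ) ^ 2 / 2))
        = ∑ j, c j * Complex.exp (ξ * (Complex.I * y - μ j) - (ξ : ℂ) ^ 2 / 2) := by
      intro ξ
      rw [mul_sum]
      refine sum_congr rfl fun j _ => ?_
      rw [mul_left_comm, ← Complex.exp_add]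
      congr 2
      ring
    simp_rw [h3]
    rw [integral_finsetSum]
    · refine sum_congr rfl fun j _ => ?_
      rw [integral_const_mul, hκ]
    · intro j _
      exact (integrable_cexp_quad V _).const_mul _
  rw [h2]
  refine tendsto_integral_of_dominated_convergence (fun _ => (1 : ℝ)) ?_ (integrable_const _) ?_ ?_
  · intro n
    have := hlam n
    have hm : AEStronglyMeasurable (fun ξ : ℝ => ∫ x, Complex.exp (-(Complex.I * ξ * x)) ∂(lam n))
        (gaussianReal 0 V) := by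
      have : StronglyMeasurable (Function.uncurry fun (ξ x : ℝ) =>
          Complex.exp (-(Complex.I * ξ * x))) := by
        refine Continuous.stronglyMeasurable ?_
        simp only [Function.uncurry_def]
        fun_prop
      exact this.integral_prod_right.aestronglyMeasurable
    exact (Continuous.aestronglyMeasurable (by fun_prop)).mul hm
  · intro n
    have := hlam n
    refine Eventually.of_forall fun ξ => ?_
    rw [norm_mul]
    have h5 : Complex.I * (ξ : ℂ) * (y : ℂ) = ((ξ * y : ℝ) : ℂ) * Complex.I := by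
      push_cast; ring
    rw [h5, Complex.norm_exp_ofReal_mul_I, one_mul]
    have h6 : ∀ x : ℝ, ‖Complex.exp (-(Complex.I * ξ * x))‖ ≤ 1 := fun x => by
      have : -(Complex.I * (ξ : ℂ) * (x : ℂ)) = ((-(ξ * x) : ℝ) : ℂ) * Complex.I := by
        push_cast; ring
      rw [this, Complex.norm_exp_ofReal_mul_I]
    have := norm_integral_le_of_norm_le_const (μ := lam n) (Eventually.of_forall h6)
    simpa using this
  · refine Eventually.of_forall fun ξ => ?_
    exact (hconv ξ).const_mul _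

end

/-- value of one smoothed exponential term -/
lemma norm_term_le (V : ℝ≥0) (hV : 1 ≤ (V : ℝ)) (c μ : ℂ)
    (hb : ∀ ξ : ℝ, ‖c‖ * Real.exp (-(ξ * μ.re) - ξ ^ 2 / 2) ≤ 1) (y : ℝ) :
    ‖c * Complex.exp (((V / (2 * (1 + V)) : ℝ) : ℂ) * (Complex.I * y - μ) ^ 2)‖
      ≤ Real.exp (-((y - μ.im) ^ 2 / 4)) := by
  set q : ℝ := V / (2 * (1 + V)) with hq
  have hq1 : q ≤ 1 / 2 := by
    rw [hq, div_le_div_iff₀ (by positivity) (by norm_num)]
    linarith
  have hq2 : 1 / 4 ≤ q := by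
    rw [hq, div_le_div_iff₀ (by norm_num) (by positivity)]
    linarith
  have h1 : ‖c‖ * Real.exp (μ.re ^ 2 / 2) ≤ 1 := by
    have := hb (-μ.re)
    have e : -(-μ.re * μ.re) - (-μ.re) ^ 2 / 2 = μ.re ^ 2 / 2 := by ring
    rwa [e] at this
  rw [norm_mul, Complex.norm_exp]
  have h2 : (((q : ℝ) : ℂ) * (Complex.I * y - μ) ^ 2).re = q * (μ.re ^ 2 - (y - μ.im) ^ 2) := by
    rw [Complex.re_ofReal_mul, pow_two, Complex.mul_re]
    simp only [Complex.sub_re, Complex.mul_re, Complex.I_re, Complex.ofReal_re, zero_mul,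
      Complex.I_im, Complex.ofReal_im, mul_zero, sub_self, zero_sub, Complex.sub_im,
      Complex.mul_im, one_mul, zero_add]
    ring
  rw [h2]
  calc ‖c‖ * Real.exp (q * (μ.re ^ 2 - (y - μ.im) ^ 2))
      ≤ ‖c‖ * Real.exp (μ.re ^ 2 / 2 + -((y - μ.im) ^ 2 / 4)) := by
        gcongr
        nlinarith [sq_nonneg μ.re, sq_nonneg (y - μ.im)]
    _ = (‖c‖ * Real.exp (μ.re ^ 2 / 2)) * Real.exp (-((y - μ.im) ^ 2 / 4)) := by
        rw [Real.exp_add]; ring
    _ ≤ 1 * Real.exp (-((y - μ.im) ^ 2 / 4)) := by gcongr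
    _ = _ := one_mul _

/-- extrapolation inequality for the smoothed density -/
lemma extrap_smooth (N : ℕ) (K : ℝ) (V : ℝ≥0) (hV : 1 ≤ (V : ℝ))
    (κ : ℝ) (hκ0 : 0 < κ) (hκ1 : κ ≤ 1) (Y : ℝ) (hYK : Y ≤ K)
    (hY0 : 24 + 30 * N ≤ Y) {ι : Type} [Fintype ι] (hcard : Fintype.card ι ≤ N)
    (c μ : ι → ℂ) (hb : ∀ j (ξ : ℝ), ‖c j‖ * Real.exp (-(ξ * (μ j).re) - ξ ^ 2 / 2) ≤ 1)
    (y : ℝ) (hy : |y| ≤ 24) (H : ℝ) (hH0 : 0 ≤ H)
    (hH : ∀ ν ∈ Ico 1 (N + 1), ‖∑ j, c j * (κ * Complex.exp (((V / (2 * (1 + V)) : ℝ) : ℂ)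
        * (Complex.I * ((y - ν * 30 : ℝ) : ℂ) - μ j) ^ 2))‖ ≤ H) :
    ‖∑ j, c j * (κ * Complex.exp (((V / (2 * (1 + V)) : ℝ) : ℂ)
        * (Complex.I * (y : ℂ) - μ j) ^ 2))‖
      ≤ (1 + Real.exp (30 * K)) ^ N * Real.exp (Y ^ 2 / 2) *
        (H + N * Real.exp (-((K - Y) ^ 2 / 4))) + N * Real.exp (-((K - Y) ^ 2 / 4)) := by
  classical
  set q : ℝ := V / (2 * (1 + V)) with hq
  have hq1 : q ≤ 1 / 2 := by
    rw [hq, div_le_div_iff₀ (by positivity) (by norm_num)]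
    linarith
  have hq2 : 1 / 4 ≤ q := by
    rw [hq, div_le_div_iff₀ (by norm_num) (by positivity)]
    linarith
  have hN0 : (0 : ℝ) ≤ N := Nat.cast_nonneg N
  set G : Finset ι := univ.filter fun j => |(μ j).im| ≤ K with hG
  set B : ℝ := N * Real.exp (-((K - Y) ^ 2 / 4)) with hB
  have hB0 : 0 ≤ B := by positivity
  have hGN : G.card ≤ N := (card_le_univ G).trans hcard
  set C : ι → ℂ := fun j => c j * Complex.exp (((q : ℝ) : ℂ) * μ j ^ 2) with hC
  set w : ι → ℂ := fun j => -(2 * Complex.I * ((q : ℝ) : ℂ) * μ j) with hw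
  -- rewriting of a term
  have hterm : ∀ (j : ι) (t : ℝ), c j * (κ * Complex.exp (((q : ℝ) : ℂ)
        * (Complex.I * (t : ℂ) - μ j) ^ 2))
      = (κ * Real.exp (-(q * t ^ 2)) : ℝ) * (C j * Complex.exp (w j * t)) := by
    intro j t
    have h1 : Complex.exp (((q : ℝ) : ℂ) * (Complex.I * (t : ℂ) - μ j) ^ 2)
        = Complex.exp ((-(q * t ^ 2) : ℝ) : ℂ) * (Complex.exp (((q : ℝ) : ℂ) * μ j ^ 2)
          * Complex.exp (w j * t)) := by
      rw [← Complex.exp_add, ← Complex.exp_add]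
      congr 1
      simp only [hw]
      push_cast
      linear_combination ((q : ℂ) * (t : ℂ) ^ 2) * Complex.I_sq
    rw [h1, hC]
    push_cast
    ring
  -- bad part is small
  have hbad : ∀ t : ℝ, |t| ≤ Y → ‖∑ j ∈ Gᶜ, c j * (κ * Complex.exp (((q : ℝ) : ℂ)
        * (Complex.I * (t : ℂ) - μ j) ^ 2))‖ ≤ B := by
    intro t ht
    refine (norm_sum_le _ _).trans ?_
    calc ∑ j ∈ Gᶜ, ‖c j * (κ * Complex.exp (((q : ℝ) : ℂ) * (Complex.I * (t : ℂ) - μ j) ^ 2))‖
        ≤ ∑ _j ∈ Gᶜ, Real.exp (-((K - Y) ^ 2 / 4)) := by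
          refine sum_le_sum fun j hj => ?_
          have h1 := norm_term_le V hV (c j) (μ j) (hb j) t
          have h2 : ‖c j * (κ * Complex.exp (((q : ℝ) : ℂ) * (Complex.I * (t : ℂ) - μ j) ^ 2))‖
              = κ * ‖c j * Complex.exp (((q : ℝ) : ℂ) * (Complex.I * (t : ℂ) - μ j) ^ 2)‖ := by
            rw [norm_mul, norm_mul, norm_mul, Complex.norm_real, Real.norm_eq_abs,
              abs_of_pos hκ0]
            ring
          rw [h2]
          have h3 : ‖c j * Complex.exp (((q : ℝ) : ℂ) * (Complex.I * (t : ℂ) - μ j) ^ 2)‖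
              ≤ Real.exp (-((K - Y) ^ 2 / 4)) := by
            refine h1.trans (Real.exp_le_exp.2 ?_)
            have hj' : K < |(μ j).im| := by
              have : j ∉ G := mem_compl.1 hj
              rw [hG, mem_filter] at this
              push Not at this
              exact this (mem_univ j)
            have h4 : K - Y ≤ |t - (μ j).im| := by
              have := abs_sub_abs_le_abs_sub (μ j).im t
              rw [abs_sub_comm] at this
              linarith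
            have h5 : (K - Y) ^ 2 ≤ (t - (μ j).im) ^ 2 := by
              rw [← sq_abs (t - (μ j).im)]
              exact pow_le_pow_left₀ (by linarith) h4 2
            linarith
          calc κ * ‖c j * Complex.exp (((q : ℝ) : ℂ) * (Complex.I * (t : ℂ) - μ j) ^ 2)‖
              ≤ 1 * Real.exp (-((K - Y) ^ 2 / 4)) := by gcongr
            _ = _ := one_mul _
      _ = (Gᶜ.card : ℝ) * Real.exp (-((K - Y) ^ 2 / 4)) := by
          rw [sum_const, nsmul_eq_mul]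
      _ ≤ B := by
          rw [hB]
          have : (Gᶜ.card : ℝ) ≤ N := by
            exact_mod_cast (card_le_univ Gᶜ).trans hcard
          gcongr
  -- good part
  have hgood : ∀ t : ℝ, ∑ j ∈ G, c j * (κ * Complex.exp (((q : ℝ) : ℂ)
        * (Complex.I * (t : ℂ) - μ j) ^ 2))
      = (κ * Real.exp (-(q * t ^ 2)) : ℝ) * ∑ j ∈ G, C j * Complex.exp (w j * t) := by
    intro t
    rw [mul_sum]
    exact sum_congr rfl fun j _ => hterm j t
  have hsplit : ∀ t : ℝ, ∑ j, c j * (κ * Complex.exp (((q : ℝ) : ℂ)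
        * (Complex.I * (t : ℂ) - μ j) ^ 2))
      = (κ * Real.exp (-(q * t ^ 2)) : ℝ) * ∑ j ∈ G, C j * Complex.exp (w j * t)
        + ∑ j ∈ Gᶜ, c j * (κ * Complex.exp (((q : ℝ) : ℂ) * (Complex.I * (t : ℂ) - μ j) ^ 2)) := by
    intro t
    rw [← hgood, sum_add_sum_compl]
  have hY : 24 ≤ Y := by linarith [mul_nonneg (show (0 : ℝ) ≤ 30 by norm_num) hN0]
  -- node bounds
  set M : ℝ := κ⁻¹ * Real.exp (Y ^ 2 / 2) * (H + B) with hM
  have hM0 : 0 ≤ M := by positivity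
  have hnode : ∀ ν ∈ Ico 1 (G.card + 1),
      ‖∑ j ∈ G, C j * Complex.exp (w j * ((y - ν * 30 : ℝ) : ℂ))‖ ≤ M := by
    intro ν hν
    rw [mem_Ico] at hν
    have hνN : ν ≤ N := by omega
    have hνN' : (ν : ℝ) ≤ N := by exact_mod_cast hνN
    have hν1 : (1 : ℝ) ≤ ν := by exact_mod_cast hν.1
    set t : ℝ := y - ν * 30 with ht
    have htY : |t| ≤ Y := by
      rw [abs_le] at hy ⊢
      constructor
      · rw [ht]; nlinarith
      · rw [ht]; nlinarith
    have h1 := hH ν (mem_Ico.2 ⟨hν.1, by omega⟩)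
    rw [hsplit t] at h1
    have h2 := hbad t htY
    have h3 : ‖(κ * Real.exp (-(q * t ^ 2)) : ℝ) * ∑ j ∈ G, C j * Complex.exp (w j * (t : ℂ))‖
        ≤ H + B := by
      have := norm_sub_le ((κ * Real.exp (-(q * t ^ 2)) : ℝ) * ∑ j ∈ G, C j * Complex.exp (w j * t)
        + ∑ j ∈ Gᶜ, c j * (κ * Complex.exp (((q : ℝ) : ℂ) * (Complex.I * (t : ℂ) - μ j) ^ 2)))
        (∑ j ∈ Gᶜ, c j * (κ * Complex.exp (((q : ℝ) : ℂ) * (Complex.I * (t : ℂ) - μ j) ^ 2)))
      rw [add_sub_cancel_right] at this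
      linarith
    rw [norm_mul, Complex.norm_real, Real.norm_eq_abs, abs_of_pos (by positivity)] at h3
    have h4 : ‖∑ j ∈ G, C j * Complex.exp (w j * (t : ℂ))‖
        = (κ * Real.exp (-(q * t ^ 2)))⁻¹ * (κ * Real.exp (-(q * t ^ 2)) *
          ‖∑ j ∈ G, C j * Complex.exp (w j * (t : ℂ))‖) := by
      have : κ * Real.exp (-(q * t ^ 2)) ≠ 0 := by positivity
      rw [← mul_assoc, inv_mul_cancel₀ this, one_mul]
    rw [h4]
    have h5 : (κ * Real.exp (-(q * t ^ 2)))⁻¹ ≤ κ⁻¹ * Real.exp (Y ^ 2 / 2) := by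
      rw [mul_inv, ← Real.exp_neg, neg_neg]
      have : q * t ^ 2 ≤ Y ^ 2 / 2 := by
        have h6 : t ^ 2 ≤ Y ^ 2 := by
          rw [← sq_abs t]
          exact pow_le_pow_left₀ (abs_nonneg t) htY 2
        nlinarith [sq_nonneg t]
      gcongr
    calc (κ * Real.exp (-(q * t ^ 2)))⁻¹ * (κ * Real.exp (-(q * t ^ 2)) *
          ‖∑ j ∈ G, C j * Complex.exp (w j * (t : ℂ))‖)
        ≤ (κ⁻¹ * Real.exp (Y ^ 2 / 2)) * (H + B) := by gcongr
      _ = M := by rw [hM]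
  have hw' : ∀ j ∈ G, (30 * (w j).re : ℝ) ≤ 30 * K := by
    intro j hj
    have hj' : |(μ j).im| ≤ K := (mem_filter.1 hj).2
    have h1 : (w j).re = 2 * q * (μ j).im := by
      simp only [hw, Complex.neg_re, Complex.mul_re, Complex.mul_im, Complex.I_re, Complex.I_im,
        Complex.re_ofNat, Complex.im_ofNat, Complex.ofReal_re, Complex.ofReal_im]
      ring
    have h2 : 2 * q * (μ j).im ≤ K := by
      have h3 := abs_le.1 hj'
      have hK0 : 0 ≤ K := (abs_nonneg _).trans hj'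
      rcases le_total 0 (μ j).im with h | h
      · nlinarith
      · nlinarith
    linarith
  have hT := turan_extrap G C w 30 (30 * K) hw' y M hM0 hnode
  rw [hsplit y]
  refine (norm_add_le _ _).trans ?_
  have hyY : |y| ≤ Y := hy.trans hY
  refine add_le_add ?_ (hbad y hyY)
  rw [norm_mul, Complex.norm_real, Real.norm_eq_abs, abs_of_pos (by positivity)]
  have h6 : κ * Real.exp (-(q * y ^ 2)) ≤ κ := by
    have : Real.exp (-(q * y ^ 2)) ≤ 1 := Real.exp_le_one_iff.2 (by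
      have := sq_nonneg y; nlinarith)
    nlinarith
  calc κ * Real.exp (-(q * y ^ 2)) * ‖∑ j ∈ G, C j * Complex.exp (w j * (y : ℂ))‖
      ≤ κ * ((1 + Real.exp (30 * K)) ^ G.card * M) := by gcongr
    _ ≤ κ * ((1 + Real.exp (30 * K)) ^ N * M) := by
        gcongr
        have := Real.exp_pos (30 * K)
        linarith
    _ = (1 + Real.exp (30 * K)) ^ N * Real.exp (Y ^ 2 / 2) * (H + B) := by
        rw [hM]
        field_simp

end Vale.Agent.P367.Lim
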