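import Vale.Agent.P367.Lim.Misfit

namespace Vale.Agent.P367.Lim

open Finset Filter Topology MeasureTheory ProbabilityTheory
open scoped NNReal

lemma grid_lower (K : ℕ) (hK : 1 ≤ K) (x : ℝ) (hx : |x| ≤ 24) :
    Real.exp (-(1 / 8)) ≤ ∑ m ∈ Icc (-(24 * K : ℤ)) (24 * K),
      Real.exp (-((K : ℝ) ^ 2 * (x - (m : ℝ) / K) ^ 2 / 2)) := by
  have hK0 : (0 : ℝ) < K := by exact_mod_cast (by omega : 0 < K)
  set m : ℤ := round (x * K) with hm
  have h1 : |x * K - m| ≤ 1 / 2 := abs_sub_round (x * K)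
  have hmem : m ∈ Icc (-(24 * K : ℤ)) (24 * K) := by
    have h2 := abs_le.1 hx
    have h3 := abs_le.1 h1
    rw [mem_Icc]
    constructor
    · have h4 : (-(24 * K : ℤ) : ℝ) - 1 < m := by
        push_cast
        nlinarith
      have : (-(24 * K : ℤ)) - 1 < m := by exact_mod_cast h4
      omega
    · have h4 : (m : ℝ) < (24 * K : ℤ) + 1 := by
        push_cast
        nlinarith
      have : m < 24 * K + 1 := by exact_mod_cast h4
      omega
  refine le_trans ?_ (single_le_sum (f := fun m : ℤ =>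
    Real.exp (-((K : ℝ) ^ 2 * (x - (m : ℝ) / K) ^ 2 / 2))) (fun _ _ => (Real.exp_pos _).le) hmem)
  apply Real.exp_le_exp.2
  have h5 : (K : ℝ) ^ 2 * (x - (m : ℝ) / K) ^ 2 = (x * K - m) ^ 2 := by
    field_simp
  rw [h5]
  have h6 : (x * K - m) ^ 2 ≤ (1 / 2) ^ 2 := by
    rw [← sq_abs]
    exact pow_le_pow_left₀ (abs_nonneg _) h1 2
  linarith

theorem misalign_of_charFun (N : ℕ) : ∃ ε : ℝ, 0 < ε ∧ ∀ (ι : Type) [Fintype ι],
    Fintype.card ι ≤ N → ∀ (c μ : ι → ℂ),
    (∀ j (ξ : ℝ), ‖c j‖ * Real.exp (-(ξ * (μ j).re) - ξ ^ 2 / 2) ≤ 1) →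
    ∀ (lam : ℕ → Measure ℝ), (∀ n, IsProbabilityMeasure (lam n)) →
    (∀ ξ : ℝ, Tendsto (fun n => ∫ x, Complex.exp (-(Complex.I * ξ * x)) ∂(lam n)) atTop
      (𝓝 (∑ j, c j * Complex.exp (-(ξ * μ j) - (ξ : ℂ) ^ 2 / 2)))) →
    (∀ᶠ n in atTop, 3 / 4 ≤ (lam n).real {x | |x| ≤ 24}) →
    ∀ᶠ n in atTop, ε ≤ (lam n).real {x | x < -1} := by
  set Y : ℝ := 24 + 30 * N with hY
  have hN0 : (0 : ℝ) ≤ N := Nat.cast_nonneg N
  obtain ⟨K, hK1, hYK, hKs⟩ := exists_K N Y (by positivity)
  have hK0 : (0 : ℝ) < K := by exact_mod_cast (by omega : 0 < K)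
  have hK1' : (1 : ℝ) ≤ K := by exact_mod_cast hK1
  set A : ℝ := (1 + Real.exp (30 * K)) ^ N * Real.exp (Y ^ 2 / 2) with hA
  have hA1 : 1 ≤ A := by
    rw [hA]
    have h1 : 1 ≤ (1 + Real.exp (30 * K)) ^ N := one_le_pow₀ (by
      have := Real.exp_pos (30 * (K : ℝ)); linarith)
    have h2 : 1 ≤ Real.exp (Y ^ 2 / 2) := Real.one_le_exp (by positivity)
    nlinarith
  set B : ℝ := N * Real.exp (-((K - Y) ^ 2 / 4)) with hB
  have hB0 : 0 ≤ B := by positivity
  set E : ℝ := Real.exp (-(25 * K ^ 2 / 2)) with hE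
  have hE0 : 0 < E := Real.exp_pos _
  set Z : ℝ := 49 * K * A with hZ
  have hZ0 : 0 < Z := by positivity
  refine ⟨1 / (4 * Z), by positivity, ?_⟩
  intro ι _ hcard c μ hb lam hlam hconv htight
  set V : ℝ≥0 := (K : ℝ≥0) ^ 2 with hV
  have hVr : (V : ℝ) = (K : ℝ) ^ 2 := by rw [hV]; push_cast; rfl
  have hV0 : V ≠ 0 := by
    rw [hV]
    have : (K : ℝ≥0) ≠ 0 := by exact_mod_cast (by omega : K ≠ 0)
    positivity
  have hV1 : 1 ≤ (V : ℝ) := by rw [hVr]; nlinarith
  obtain ⟨κ, hκ0, hκ1, hκ⟩ := gauss_exp_quadratic V hV0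
  -- limiting smoothed density
  set h : ℝ → ℂ := fun y => ∑ j, c j * (κ * Complex.exp (((V / (2 * (1 + V)) : ℝ) : ℂ)
        * (Complex.I * y - μ j) ^ 2)) with hh
  set hn : ℕ → ℝ → ℝ := fun n y => ∫ x, Real.exp (-(V * (x - y) ^ 2 / 2)) ∂(lam n) with hhn
  have hnorm : ∀ y : ℝ, Tendsto (fun n => hn n y) atTop (𝓝 ‖h y‖) := by
    intro y
    have h1 := (tendsto_smooth V κ hκ c μ lam hlam hconv y).norm
    refine h1.congr fun n => ?_
    rw [Complex.norm_real, Real.norm_eq_abs, abs_of_nonneg]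
    exact integral_nonneg fun x => (Real.exp_pos _).le
  set e1 : ℝ := 1 / (16 * Z) with he1
  have he1p : 0 < e1 := by positivity
  set grid := Icc (-(24 * K : ℤ)) (24 * K) with hgrid
  have hev1 : ∀ᶠ n in atTop, ∀ m ∈ grid, hn n ((m : ℝ) / K) ≤ ‖h ((m : ℝ) / K)‖ + e1 := by
    rw [Filter.eventually_all_finset]
    intro m _
    have := (hnorm ((m : ℝ) / K)).eventually_lt_const
      (show ‖h ((m : ℝ) / K)‖ < ‖h ((m : ℝ) / K)‖ + e1 by linarith)
    exact this.mono fun n hn => hn.le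
  have hev2 : ∀ᶠ n in atTop, ∀ m ∈ grid, ∀ ν ∈ Ico 1 (N + 1),
      ‖h ((m : ℝ) / K - ν * 30)‖ ≤ hn n ((m : ℝ) / K - ν * 30) + e1 := by
    rw [Filter.eventually_all_finset]
    intro m _
    rw [Filter.eventually_all_finset]
    intro ν _
    have := (hnorm ((m : ℝ) / K - ν * 30)).eventually_const_lt
      (show ‖h ((m : ℝ) / K - ν * 30)‖ - e1 < ‖h ((m : ℝ) / K - ν * 30)‖ by linarith)
    exact this.mono fun n hn => by linarith
  filter_upwards [hev1, hev2, htight] with n hg hnode ht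
  have := hlam n
  set pn : ℝ := (lam n).real {x | x < -1} with hpn
  have hpn0 : 0 ≤ pn := measureReal_nonneg
  -- integrability of the Gaussian bumps
  have hint : ∀ y : ℝ, Integrable (fun x : ℝ => Real.exp (-(V * (x - y) ^ 2 / 2))) (lam n) := by
    intro y
    refine (integrable_const (1 : ℝ)).mono' ?_ ?_
    · exact (Continuous.aestronglyMeasurable (by fun_prop))
    · refine Eventually.of_forall fun x => ?_
      rw [Real.norm_eq_abs, Real.abs_exp]
      exact Real.exp_le_one_iff.2 (by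
        have := mul_nonneg V.coe_nonneg (sq_nonneg (x - y)); linarith)
  have hgridabs : ∀ m ∈ grid, |(m : ℝ) / K| ≤ 24 := by
    intro m hm
    rw [hgrid, mem_Icc] at hm
    rw [abs_div, abs_of_pos hK0, div_le_iff₀ hK0, abs_le]
    constructor
    · have : ((-(24 * K : ℤ) : ℤ) : ℝ) ≤ m := by exact_mod_cast hm.1
      push_cast at this
      linarith
    · have : (m : ℝ) ≤ ((24 * K : ℤ) : ℝ) := by exact_mod_cast hm.2
      push_cast at this
      linarith
  -- nodes are small
  have hsmall : ∀ y : ℝ, y ≤ -6 → hn n y ≤ pn + E := by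
    intro y hy
    have h1 : hn n y ≤ ∫ x, ({x : ℝ | x < -1}.indicator (fun _ => (1 : ℝ)) x + E) ∂(lam n) := by
      refine integral_mono (hint y) ?_ ?_
      · refine Integrable.add ?_ (integrable_const _)
        exact (integrable_const (1 : ℝ)).indicator measurableSet_Iio
      · intro x
        simp only
        by_cases hx : x < -1
        · have hx' : x ∈ {x : ℝ | x < -1} := hx
          rw [Set.indicator_of_mem hx']
          have : Real.exp (-(V * (x - y) ^ 2 / 2)) ≤ 1 := Real.exp_le_one_iff.2 (by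
            have := mul_nonneg V.coe_nonneg (sq_nonneg (x - y)); linarith)
          linarith
        · have hx' : x ∉ {x : ℝ | x < -1} := hx
          rw [Set.indicator_of_notMem hx', zero_add, hE]
          apply Real.exp_le_exp.2
          push Not at hx
          rw [hVr]
          have h2 : 5 ≤ x - y := by linarith
          have h3 : (25 : ℝ) ≤ (x - y) ^ 2 := by nlinarith
          have h4 : 0 ≤ (K : ℝ) ^ 2 := by positivity
          nlinarith
    refine h1.trans (le_of_eq ?_)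
    have hms : MeasurableSet {x : ℝ | x < -1} := measurableSet_Iio
    have hI : Integrable ({x : ℝ | x < -1}.indicator (fun _ => (1 : ℝ))) (lam n) :=
      (integrable_const (1 : ℝ)).indicator hms
    rw [integral_add hI (integrable_const _), integral_indicator hms]
    simp only [integral_const, MeasurableSet.univ, measureReal_restrict_apply, Set.univ_inter,
      smul_eq_mul, mul_one, probReal_univ, one_mul]
    rfl
  -- bound of the limit density on the grid
  have hbound : ∀ m ∈ grid, ‖h ((m : ℝ) / K)‖ ≤ A * (pn + E + e1 + B) + B := by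
    intro m hm
    refine extrap_smooth N K V hV1 κ hκ0 hκ1 Y hYK le_rfl hcard c μ hb _ (hgridabs m hm) _
      (by positivity) ?_
    intro ν hν
    have h1 := hnode m hm ν hν
    have h2 := hsmall ((m : ℝ) / K - ν * 30) (by
      have := (abs_le.1 (hgridabs m hm)).2
      have : (1 : ℝ) ≤ ν := by exact_mod_cast (mem_Ico.1 hν).1
      linarith)
    exact h1.trans (by linarith)
  -- lower bound
  have hlow : 1 / 2 ≤ ∑ m ∈ grid, hn n ((m : ℝ) / K) := by
    have h1 : ∫ x, ({x : ℝ | |x| ≤ 24}.indicator (fun _ => Real.exp (-(1 / 8))) x) ∂(lam n)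
        ≤ ∫ x, ∑ m ∈ grid, Real.exp (-(V * (x - (m : ℝ) / K) ^ 2 / 2)) ∂(lam n) := by
      refine integral_mono ?_ ?_ ?_
      · exact (integrable_const _).indicator (measurableSet_le (by fun_prop) (by fun_prop))
      · exact integrable_finsetSum _ fun m _ => hint _
      · intro x
        simp only
        by_cases hx : |x| ≤ 24
        · have hx' : x ∈ {x : ℝ | |x| ≤ 24} := hx
          rw [Set.indicator_of_mem hx', hVr]
          exact grid_lower K hK1 x hx
        · have hx' : x ∉ {x : ℝ | |x| ≤ 24} := hx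
          rw [Set.indicator_of_notMem hx']
          exact sum_nonneg fun _ _ => (Real.exp_pos _).le
    rw [integral_finsetSum _ fun m _ => hint _] at h1
    refine le_trans ?_ h1
    rw [integral_indicator (measurableSet_le (by fun_prop) (by fun_prop))]
    simp only [integral_const, MeasurableSet.univ, measureReal_restrict_apply, Set.univ_inter,
      smul_eq_mul]
    have h2 : (7 / 8 : ℝ) ≤ Real.exp (-(1 / 8)) := by
      have := Real.add_one_le_exp (-(1 / 8 : ℝ))
      linarith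
    calc (1 / 2 : ℝ) ≤ 3 / 4 * (7 / 8) := by norm_num
      _ ≤ (lam n).real {x | |x| ≤ 24} * Real.exp (-(1 / 8)) := by gcongr
  have hcardgrid : (grid.card : ℝ) ≤ 49 * K := by
    rw [hgrid, Int.card_Icc]
    have : ((24 * K + 1 - -(24 * K : ℤ)).toNat : ℝ) = 48 * K + 1 := by
      have h1 : (24 * (K : ℤ) + 1 - -(24 * K : ℤ)).toNat = 48 * K + 1 := by omega
      rw [h1]
      push_cast
      ring
    rw [this]
    linarith
  have hup : ∑ m ∈ grid, hn n ((m : ℝ) / K) ≤ 49 * K * (A * (pn + E + e1 + B) + B + e1) := by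
    calc ∑ m ∈ grid, hn n ((m : ℝ) / K) ≤ ∑ _m ∈ grid, (A * (pn + E + e1 + B) + B + e1) := by
          refine sum_le_sum fun m hm => ?_
          have := hg m hm
          have := hbound m hm
          linarith
      _ = (grid.card : ℝ) * (A * (pn + E + e1 + B) + B + e1) := by
          rw [sum_const, nsmul_eq_mul]
      _ ≤ 49 * K * (A * (pn + E + e1 + B) + B + e1) := by
          gcongr
  have hfin : 1 / 2 ≤ Z * pn + Z * (E + 2 * B) + 2 * (Z * e1) := by
    have h1 := hlow.trans hup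
    have h2 : A * (pn + E + e1 + B) + B + e1 ≤ A * pn + A * (E + 2 * B) + 2 * (A * e1) := by
      nlinarith
    have h3 : 49 * K * (A * (pn + E + e1 + B) + B + e1)
        ≤ 49 * K * (A * pn + A * (E + 2 * B) + 2 * (A * e1)) := by gcongr
    calc (1 / 2 : ℝ) ≤ 49 * K * (A * pn + A * (E + 2 * B) + 2 * (A * e1)) := h1.trans h3
      _ = _ := by rw [hZ]; ring
  have hZe : Z * e1 = 1 / 16 := by
    rw [he1]; field_simp
  have hZEB : Z * (E + 2 * B) ≤ 1 / 8 := by
    rw [hZ, hA, hE, hB]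
    exact hKs
  have : 1 / 4 ≤ Z * pn := by linarith
  rw [div_le_iff₀ (by positivity)]
  linarith

end Vale.Agent.P367.Lim
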