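import Vale.Agent.P367.Lim.Path
import Vale.Agent.P367.Gap.Model

namespace Vale.Agent.P367.Lim

open Finset ComplexConjugate Matrix Nat Vale.Agent.P367.Gap

/-- exponential of a multiple of an involution -/
lemma exp_invol {m : Type} [Fintype m] [DecidableEq m] (A : Matrix m m ℂ) (hA : A * A = 1) (c : ℂ) :
    NormedSpace.exp (c • A) = Complex.cosh c • (1 : Matrix m m ℂ) + Complex.sinh c • A := by
  have hp : ∀ k : ℕ, A ^ (2 * k) = 1 := by
    intro k
    rw [pow_mul, pow_two, hA, one_pow]
  have hp' : ∀ k : ℕ, A ^ (2 * k + 1) = A := by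
    intro k
    rw [pow_succ, hp, one_mul]
  have h1 : HasSum (fun k : ℕ => (((2 * k)! : ℂ)⁻¹) • (c • A) ^ (2 * k))
      (Complex.cosh c • (1 : Matrix m m ℂ)) := by
    have h := (Complex.hasSum_cosh c).smul_const (1 : Matrix m m ℂ)
    refine h.congr_fun ?_
    intro k
    rw [smul_pow, hp, smul_smul, div_eq_mul_inv, mul_comm]
  have h2 : HasSum (fun k : ℕ => (((2 * k + 1)! : ℂ)⁻¹) • (c • A) ^ (2 * k + 1))
      (Complex.sinh c • A) := by
    have h := (Complex.hasSum_sinh c).smul_const A
    refine h.congr_fun ?_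
    intro k
    rw [smul_pow, hp', smul_smul, div_eq_mul_inv, mul_comm]
  have h3 := HasSum.even_add_odd (f := fun k : ℕ => ((k ! : ℂ)⁻¹) • (c • A) ^ k) h1 h2
  rw [NormedSpace.exp_eq_tsum (𝕂 := ℂ)]
  exact h3.tsum_eq

variable {n : ℕ}

/-- flip one spin -/
def flp (i : Fin n) (s : Conf n) : Conf n := Function.update s i (!(s i))

lemma flp_flp (i : Fin n) (s : Conf n) : flp i (flp i s) = s := by
  unfold flp
  simp

lemma eq_flp_iff (i : Fin n) (s t : Conf n) : s = flp i t ↔ t = flp i s := by
  constructor
  · intro h; rw [h, flp_flp]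
  · intro h; rw [h, flp_flp]

lemma pauliX_mul (i : Fin n) (M : Matrix (Conf n) (Conf n) ℂ) (s t : Conf n) :
    (pauliX i * M) s t = M (flp i s) t := by
  rw [Matrix.mul_apply]
  have h : ∀ r, (pauliX i : Matrix (Conf n) (Conf n) ℂ) s r * M r t
      = if r = flp i s then M r t else 0 := by
    intro r
    have : (pauliX i : Matrix (Conf n) (Conf n) ℂ) s r = if s = flp i r then 1 else 0 := rfl
    rw [this]
    by_cases hr : r = flp i s
    · rw [if_pos hr, if_pos ((eq_flp_iff i s r).2 hr), one_mul]
    · rw [if_neg hr, if_neg (fun h => hr ((eq_flp_iff i s r).1 h)), zero_mul]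
  simp_rw [h]
  simp

lemma pauliX_apply (i : Fin n) (s t : Conf n) :
    (pauliX i : Matrix (Conf n) (Conf n) ℂ) s t = if s = flp i t then 1 else 0 := rfl

lemma flp_comm (i j : Fin n) (s : Conf n) : flp i (flp j s) = flp j (flp i s) := by
  by_cases h : i = j
  · subst h; rfl
  · unfold flp
    rw [Function.update_of_ne h, Function.update_of_ne (Ne.symm h), Function.update_comm h]

lemma pauliX_sq (i : Fin n) : (pauliX i : Matrix (Conf n) (Conf n) ℂ) * pauliX i = 1 := by
  ext s t
  rw [pauliX_mul, pauliX_apply, Matrix.one_apply]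
  by_cases h : s = t
  · subst h; simp
  · rw [if_neg h, if_neg]
    intro h'
    apply h
    rw [← flp_flp i s, h', flp_flp]

lemma pauliX_commute (i j : Fin n) :
    Commute (pauliX i : Matrix (Conf n) (Conf n) ℂ) (pauliX j) := by
  ext s t
  rw [pauliX_mul, pauliX_mul, pauliX_apply, pauliX_apply]
  by_cases h : flp i s = flp j t
  · rw [if_pos h, if_pos]
    rw [eq_flp_iff, flp_comm, h, flp_flp]
  · rw [if_neg h, if_neg]
    intro h'
    apply h
    rw [eq_flp_iff, flp_comm, h', flp_flp]

/-- one-site factor with complex parameter -/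
noncomputable def mixc (c : ℂ) (b b' : Bool) : ℂ := if b = b' then Complex.cosh c else Complex.sinh c

lemma mixc_eq (b : ℝ) (x y : Bool) : mixc (-(Complex.I * (b : ℂ))) x y = mix b x y := by
  unfold mixc mix
  have h1 : -(Complex.I * (b : ℂ)) = -(b * Complex.I) := by ring
  rw [h1, Complex.cosh_neg, Complex.sinh_neg, Complex.cosh_mul_I, Complex.sinh_mul_I]
  push_cast
  split_ifs
  · rfl
  · ring

lemma exp_sum_pauliX (c : ℂ) (S : Finset (Fin n)) (s t : Conf n) :
    NormedSpace.exp (c • ∑ i ∈ S, (pauliX i : Matrix (Conf n) (Conf n) ℂ)) s t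
      = ∏ j, if j ∈ S then mixc c (s j) (t j) else if s j = t j then 1 else 0 := by
  induction S using Finset.induction_on generalizing s with
  | empty =>
    simp only [sum_empty, smul_zero, NormedSpace.exp_zero, notMem_empty, if_false]
    rw [Matrix.one_apply]
    by_cases h : s = t
    · subst h; simp
    · rw [if_neg h]
      obtain ⟨j, hj⟩ := Function.ne_iff.1 h
      exact (prod_eq_zero (mem_univ j) (if_neg hj)).symm
  | insert a S ha ih =>
    rw [sum_insert ha, smul_add, Matrix.exp_add_of_commute, exp_invol _ (pauliX_sq a), add_mul,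
      Matrix.add_apply, Matrix.smul_mul, Matrix.smul_mul, Matrix.smul_apply, Matrix.smul_apply,
      one_mul, pauliX_mul, ih, ih, smul_eq_mul, smul_eq_mul]
    · rw [← mul_prod_erase univ _ (mem_univ a), ← mul_prod_erase univ _ (mem_univ a),
        ← mul_prod_erase univ _ (mem_univ a)]
      have h1 : ∏ x ∈ univ.erase a, (if x ∈ S then mixc c (flp a s x) (t x)
            else if flp a s x = t x then 1 else 0)
          = ∏ x ∈ univ.erase a, (if x ∈ S then mixc c (s x) (t x)
            else if s x = t x then 1 else 0) := by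
        refine prod_congr rfl fun x hx => ?_
        have : flp a s x = s x := Function.update_of_ne (ne_of_mem_erase hx) _ _
        rw [this]
      have h2 : ∏ x ∈ univ.erase a, (if x ∈ insert a S then mixc c (s x) (t x)
            else if s x = t x then 1 else 0)
          = ∏ x ∈ univ.erase a, (if x ∈ S then mixc c (s x) (t x)
            else if s x = t x then 1 else 0) := by
        refine prod_congr rfl fun x hx => ?_
        have : x ∈ insert a S ↔ x ∈ S := by
          rw [mem_insert]
          exact or_iff_right (ne_of_mem_erase hx)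
        simp only [this]
      rw [h1, h2, if_neg ha, if_neg ha, if_pos (mem_insert_self a S)]
      have h3 : flp a s a = !(s a) := Function.update_self _ _ _
      rw [h3]
      unfold mixc
      cases s a <;> cases t a <;> simp
    · have h : Commute (pauliX a : Matrix (Conf n) (Conf n) ℂ) (∑ i ∈ S, pauliX i) :=
        Commute.sum_right _ _ _ fun i _ => pauliX_commute a i
      exact (h.smul_left c).smul_right c

theorem mixU_apply (b : ℝ) (s t : Conf n) : mixU n b s t = ∏ j, mix b (s j) (t j) := by
  unfold mixU mixer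
  rw [exp_sum_pauliX]
  refine prod_congr rfl fun j _ => ?_
  rw [if_pos (mem_univ j), mixc_eq]

end Vale.Agent.P367.Lim
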