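import Vale.Agent.P367.Lim.Mixer
import Vale.Agent.P367.Lim.LT3

namespace Vale.Agent.P367.Lim

open Finset ComplexConjugate MeasureTheory ProbabilityTheory Filter Topology Vale.Agent.P367.Gap

variable {n : ℕ}

/-- the circuit state as a path amplitude -/
lemma qaoa_amp (J : Pair n → ℝ) (u : ℕ → Conf n → ℂ) (γ' β' : ℕ → ℝ) (p : ℕ) :
    ∀ (γ β : Fin p → ℝ), (∀ k : Fin p, γ' k = γ k) → (∀ k : Fin p, β' k = β k) →
    (∀ k < p, ∀ z, u k z = Complex.exp (-(Complex.I * γ' k * ((skEnergy J z : ℝ) : ℂ)))) →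
    ∀ z, amp β' p u z = u p z * qaoaState J p γ β z := by
  induction p with
  | zero =>
    intro γ β _ _ _ z
    simp only [amp, qaoaState, plusState, prod_const, card_univ, Fintype.card_fin]
    push_cast
    rfl
  | succ p ih =>
    intro γ β hγ hβ hu z
    have h1 : γ' p = γ (Fin.last p) := by have := hγ (Fin.last p); simpa using this
    have h2 : β' p = β (Fin.last p) := by have := hβ (Fin.last p); simpa using this
    rw [amp, qaoaState, exp_cost]
    congr 1
    have h3 : NormedSpace.exp ((-(Complex.I * (β (Fin.last p) : ℂ))) • mixer n)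
        = mixU n (β (Fin.last p)) := rfl
    rw [h3, Matrix.mulVec, dotProduct]
    refine sum_congr rfl fun z' _ => ?_
    rw [mixU_apply, h2, ih (fun k => γ k.castSucc) (fun k => β k.castSucc)
      (fun k => by have := hγ k.castSucc; simpa using this)
      (fun k => by have := hβ k.castSucc; simpa using this)
      (fun k hk z => hu k (by omega) z), hu p (by omega), h1]

lemma sum_sym (f : Fin n → Fin n → ℝ) (hf : ∀ a b, f a b = f b a) :
    ∑ i, ∑ j, (if i = j then 0 else f i j) = 2 * ∑ e : Pair n, f e.1.1 e.1.2 := by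
  rw [sum_pair, two_mul]
  have h1 : ∀ i j : Fin n, (if i = j then 0 else f i j)
      = (if i < j then f i j else 0) + (if j < i then f j i else 0) := by
    intro i j
    rcases lt_trichotomy i j with h | h | h
    · rw [if_neg h.ne, if_pos h, if_neg h.not_gt, add_zero]
    · subst h; simp
    · rw [if_neg h.ne', if_neg h.not_gt, if_pos h, zero_add, hf]
  simp_rw [h1, sum_add_distrib]
  congr 1
  rw [sum_comm]

/-- source matrix of site `i` -/
noncomputable def xim (i : Fin n) (ξ : ℝ) (a b : Fin n) : ℝ := if a = i ∨ b = i then ξ else 0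

lemma xim_symm (i : Fin n) (ξ : ℝ) (a b : Fin n) : xim i ξ a b = xim i ξ b a := by
  unfold xim
  simp only [or_comm]

/-- Gaussian integration of the contour sum over pair couplings -/
lemma pair_char (γ β : ℕ → ℝ) (p : ℕ) (ξ : Fin n → Fin n → ℝ) (hξ : ∀ a b, ξ a b = ξ b a)
    (φ : Fin n → CP p → ℂ) :
    ∫ J : Pair n → ℝ, (∑ X : Fin n → CP p, (∏ j, wgt β p (X j) * φ j (X j)) *
      Complex.exp (-(Complex.I * ((∑ e : Pair n, ((Real.sqrt n)⁻¹ * (qq γ p (X e.1.1) (X e.1.2)
        + ξ e.1.1 e.1.2 * (lst (X e.1.1) * lst (X e.1.2)))) * J e : ℝ) : ℂ)))) ∂(couplingLaw n)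
      = FF (V := Fin n) γ β p (Real.sqrt n)⁻¹ ξ φ := by
  unfold couplingLaw
  rw [integral_finsetSum]
  · unfold FF
    refine sum_congr rfl fun X _ => ?_
    rw [integral_const_mul, gauss_char]
    congr 4
    have h := sum_sym (n := n) (fun a b => (qq γ p (X a) (X b)
        + ξ a b * (lst (X a) * lst (X b))) ^ 2) (fun a b => by
          rw [qq_comm, hξ, mul_comm (lst (X a))])
    unfold QI
    rw [h]
    have h2 : ∀ e : Pair n, ((Real.sqrt n)⁻¹ * (qq γ p (X e.1.1) (X e.1.2)
        + ξ e.1.1 e.1.2 * (lst (X e.1.1) * lst (X e.1.2)))) ^ 2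
        = (Real.sqrt n)⁻¹ ^ 2 * (qq γ p (X e.1.1) (X e.1.2)
        + ξ e.1.1 e.1.2 * (lst (X e.1.1) * lst (X e.1.2))) ^ 2 := fun e => by rw [mul_pow]
    simp_rw [h2]
    rw [← mul_sum]
    ring
  · intro X _
    exact (integrable_exp_lin _).const_mul _

lemma exp_weight (a b : ℝ) : Complex.exp (-(Complex.I * (a : ℂ) * (b : ℂ)))
    = Complex.exp (-(Complex.I * ((a * b : ℝ) : ℂ))) := by
  congr 1; push_cast; ring

/-- the characteristic function of an aligned field, exactly -/
theorem char_eq (p : ℕ) (γ β : Fin p → ℝ) (γ' β' : ℕ → ℝ)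
    (hγ : ∀ k : Fin p, γ' k = γ k) (hβ : ∀ k : Fin p, β' k = β k) (i : Fin n) (ξ : ℝ) :
    ∫ J, (∑ s, ((‖qaoaState J p γ β s‖ ^ 2 : ℝ) : ℂ) *
      Complex.exp (-(Complex.I * ((ξ * tt (uvec i) s J : ℝ) : ℂ)))) ∂(couplingLaw n)
      = FF (V := Fin n) γ' β' p (Real.sqrt n)⁻¹ (xim i ξ) (fun _ _ => 1) := by
  rw [← pair_char γ' β' p (xim i ξ) (xim_symm i ξ)]
  congr 1
  funext J
  let u : ℕ → Conf n → ℂ := fun k z =>
    if k < p then Complex.exp (-(Complex.I * γ' k * ((skEnergy J z : ℝ) : ℂ)))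
    else Complex.exp (-(Complex.I * ((ξ * tt (uvec i) z J : ℝ) : ℂ)))
  let v : ℕ → Conf n → ℂ := fun k z =>
    if k < p then Complex.exp (-(Complex.I * γ' k * ((skEnergy J z : ℝ) : ℂ)))
    else 1
  have hu := qaoa_amp J u γ' β' p γ β hγ hβ (fun k hk z => by simp [u, hk])
  have hv := qaoa_amp J v γ' β' p γ β hγ hβ (fun k hk z => by simp [v, hk])
  have h1 : ∑ s, ((‖qaoaState J p γ β s‖ ^ 2 : ℝ) : ℂ) *
      Complex.exp (-(Complex.I * ((ξ * tt (uvec i) s J : ℝ) : ℂ)))
      = ∑ z, amp β' p u z * conj (amp β' p v z) := by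
    refine sum_congr rfl fun z _ => ?_
    rw [hu, hv]
    have e1 : u p z = Complex.exp (-(Complex.I * ((ξ * tt (uvec i) z J : ℝ) : ℂ))) := by simp [u]
    have e2 : v p z = 1 := by simp [v]
    rw [e1, e2, one_mul]
    have e3 : ((‖qaoaState J p γ β z‖ ^ 2 : ℝ) : ℂ)
        = qaoaState J p γ β z * conj (qaoaState J p γ β z) := by
      rw [Complex.mul_conj, Complex.normSq_eq_norm_sq]
    rw [e3]
    ring
  rw [h1, sum_amp_mul_conj]
  refine sum_congr rfl fun X _ => ?_
  simp only [mul_one]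
  congr 1
  have e1 : ∏ k : Fin (p + 1), u k (fun j => (X j).1 k)
      = Complex.exp (-(Complex.I * ((∑ k : Fin p, γ' k * skEnergy J (fun j => (X j).1 k.castSucc)
          + ξ * tt (uvec i) (fun j => (X j).1 (Fin.last p)) J : ℝ) : ℂ))) := by
    rw [Fin.prod_univ_castSucc]
    have e2 : ∀ k : Fin p, u k.castSucc (fun j => (X j).1 k.castSucc)
        = Complex.exp (-(Complex.I * ((γ' k * skEnergy J (fun j => (X j).1 k.castSucc) : ℝ) : ℂ))) := by
      intro k
      simp only [u, Fin.val_castSucc, k.2, if_true]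
      exact exp_weight _ _
    have e3 : u (Fin.last p) (fun j => (X j).1 (Fin.last p))
        = Complex.exp (-(Complex.I * ((ξ * tt (uvec i) (fun j => (X j).1 (Fin.last p)) J : ℝ) : ℂ))) := by
      simp [u]
    rw [e3]
    simp_rw [e2]
    rw [← Complex.exp_sum, ← Complex.exp_add]
    congr 1
    rw [sum_neg_distrib, ← mul_sum]
    push_cast
    ring
  have e2 : ∏ k : Fin (p + 1), conj (v k (fun j => (X j).2 k))
      = Complex.exp (Complex.I * ((∑ k : Fin p, γ' k * skEnergy J (fun j => (X j).2 k.castSucc)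
          : ℝ) : ℂ)) := by
    rw [Fin.prod_univ_castSucc]
    have e2 : ∀ k : Fin p, conj (v k.castSucc (fun j => (X j).2 k.castSucc))
        = Complex.exp (Complex.I * ((γ' k * skEnergy J (fun j => (X j).2 k.castSucc) : ℝ) : ℂ)) := by
      intro k
      simp only [v, Fin.val_castSucc, k.2, if_true]
      rw [exp_weight, ← Complex.exp_conj, map_neg, map_mul, Complex.conj_I, Complex.conj_ofReal]
      congr 1
      ring
    have e3 : conj (v (Fin.last p) (fun j => (X j).2 (Fin.last p))) = 1 := by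
      simp [v]
    rw [e3]
    simp_rw [e2]
    rw [← Complex.exp_sum, ← mul_sum, mul_one]
    push_cast
    ring_nf
  rw [e1, e2, ← Complex.exp_add]
  congr 1
  have key : ∑ e : Pair n, ((Real.sqrt n)⁻¹ * (qq γ' p (X e.1.1) (X e.1.2)
        + xim i ξ e.1.1 e.1.2 * (lst (X e.1.1) * lst (X e.1.2)))) * J e
      = ∑ k : Fin p, γ' k * skEnergy J (fun j => (X j).1 k.castSucc)
          + ξ * tt (uvec i) (fun j => (X j).1 (Fin.last p)) J
        - ∑ k : Fin p, γ' k * skEnergy J (fun j => (X j).2 k.castSucc) := by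
    unfold skEnergy tt uvec
    simp_rw [mul_sum]
    rw [sum_comm, sum_comm (s := (univ : Finset (Fin p)))
      (f := fun k e => γ' ↑k * ((Real.sqrt n)⁻¹ * (J e *
        (spin ((X e.1.1).2 k.castSucc) * spin ((X e.1.2).2 k.castSucc)))))]
    rw [← sum_add_distrib, ← sum_sub_distrib]
    refine sum_congr rfl fun e _ => ?_
    unfold qq chi inc xim lst
    rw [mul_add, add_mul, mul_sum, sum_mul, add_sub_right_comm, ← sum_sub_distrib]
    congr 1
    · refine sum_congr rfl fun k _ => ?_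
      ring
    · by_cases h : e.1.1 = i ∨ e.1.2 = i
      · simp only [h, if_true]; ring
      · simp only [h, if_false]; ring
  rw [key]
  push_cast
  ring

end Vale.Agent.P367.Lim
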