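import Vale.Agent.P367.Lim.LT3

namespace Vale.Agent.P367.Lim

open Finset ComplexConjugate MeasureTheory ProbabilityTheory Filter Topology Vale.Agent.P367.Gap

/-- total mass one -/
lemma FF_one (γ β : ℕ → ℝ) (V : Type) [Fintype V] [DecidableEq V] (p : ℕ) (s : ℝ) :
    FF (V := V) γ β p s (fun _ _ => 0) (fun _ _ => 1) = 1 := by
  induction p with
  | zero =>
    unfold FF
    have hq : ∀ X : V → CP 0, QI γ 0 (fun _ _ => 0) X = 0 := by
      intro X
      unfold QI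
      refine sum_eq_zero fun i _ => sum_eq_zero fun j _ => ?_
      simp [qq]
    simp_rw [hq]
    simp only [mul_zero, Complex.ofReal_zero, neg_zero, Complex.exp_zero, mul_one]
    have h4 := (Finset.prod_univ_sum (fun _ : V => (univ : Finset (CP 0)))
      (fun _ x => wgt β 0 x))
    rw [Fintype.piFinset_univ] at h4
    rw [← h4]
    simp only [sum_wgt_zero, prod_const_one]
  | succ p ih =>
    have h := FF_succ (V := V) γ β p s (fun _ _ => 1)
    rw [h, ih]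

lemma seq_s (r : ℕ) : Tendsto (fun N : ℕ => (N : ℝ) * ((Real.sqrt ((N + r : ℕ) : ℝ))⁻¹) ^ 2) atTop
    (𝓝 1) := by
  have h2 : Tendsto (fun N : ℕ => (N : ℝ) / ((N + r : ℕ) : ℝ)) atTop (𝓝 1) := by
    have := tendsto_natCast_div_add_atTop (𝕜 := ℝ) (r : ℝ)
    refine this.congr fun N => ?_
    push_cast; rfl
  refine h2.congr fun N => ?_
  rw [inv_pow, Real.sq_sqrt (Nat.cast_nonneg _), div_eq_mul_inv]

lemma sum_gg (γ β : ℕ → ℝ) (p : ℕ) : ∑ y : CP p, gg γ β p y = 1 := by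
  have h1 : ∀ N : ℕ, ∑ y : CP p, Mg γ β p 1 N (Real.sqrt ((N + 1 : ℕ) : ℝ))⁻¹ (fun _ => y) = 1 := by
    intro N
    have h := FF_inl γ β p 1 N (Real.sqrt ((N + 1 : ℕ) : ℝ))⁻¹ (fun _ => 1)
    have h2 : (Sum.elim (fun _ : Fin 1 => fun _ : CP p => (1 : ℂ)) (fun _ : Fin N => fun _ => 1))
        = fun _ _ => 1 := by
      funext j
      rcases j with j | j <;> rfl
    rw [h2, FF_one] at h
    rw [h]
    simp only [prod_const_one, one_mul]
    exact ((Equiv.funUnique (Fin 1) (CP p)).symm.sum_comp (fun y => Mg γ β p 1 N _ y))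
  have h2 : Tendsto (fun N : ℕ => ∑ y : CP p, Mg γ β p 1 N (Real.sqrt ((N + 1 : ℕ) : ℝ))⁻¹
      (fun _ => y)) atTop (𝓝 (∑ y : CP p, gg γ β p y)) := by
    refine tendsto_finsetSum _ fun y _ => ?_
    have h3 := LT_all γ β p 1 (fun _ => y) (fun N => (Real.sqrt ((N + 1 : ℕ) : ℝ))⁻¹) (seq_s 1)
    simpa using h3
  simp_rw [h1] at h2
  exact tendsto_nhds_unique h2 tendsto_const_nhds |>.symm ▸ rfl

lemma lst_sq {p : ℕ} (x : CP p) : lst x * lst x = 1 := by
  unfold lst spin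
  split_ifs <;> norm_num

/-- source matrix after splitting off a site -/
def xiU (m : ℕ) (ξ : ℝ) : Unit ⊕ Fin m → Unit ⊕ Fin m → ℝ :=
  Sum.elim (fun _ _ => ξ) (fun _ => Sum.elim (fun _ => ξ) (fun _ => 0))

lemma FF_unit (γ β : ℕ → ℝ) (p m : ℕ) (s ξ : ℝ) (φ : CP p → ℂ) :
    FF (V := Unit ⊕ Fin m) γ β p s (xiU m ξ) (Sum.elim (fun _ => φ) (fun _ _ => 1))
      = ∑ x : CP p, wgt β p x * φ x * FF (V := Fin m) γ β p s (fun _ _ => 0)
        (fun _ y => Complex.exp (-((s ^ 2 / 2 * (qq γ p x y + ξ * (lst x * lst y)) ^ 2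
          : ℝ) : ℂ))) := by
  rw [FF_sum _ _ _ _ _ (fun _ _ => rfl)]
  rw [← (Equiv.funUnique Unit (CP p)).symm.sum_comp]
  refine sum_congr rfl fun x _ => ?_
  have h0 : QI γ p (fun i j => xiU m ξ (Sum.inl i) (Sum.inl j))
      ((Equiv.funUnique Unit (CP p)).symm x) = 0 := by
    unfold QI
    refine sum_eq_zero fun i _ => sum_eq_zero fun j _ => ?_
    rw [if_pos (Subsingleton.elim i j)]
  rw [h0]
  simp only [mul_zero, Complex.ofReal_zero, neg_zero, Complex.exp_zero, one_mul]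
  congr 1
  · simp [Equiv.funUnique]
  · have h1 : (fun i j => xiU m ξ (Sum.inr i) (Sum.inr j)) = fun _ _ => (0 : ℝ) := by
      funext i j; rfl
    rw [h1]
    congr 1
    funext j y
    simp only [Sum.elim_inr, one_mul, univ_unique, sum_singleton]
    rfl

lemma FF_site (γ β : ℕ → ℝ) (p m : ℕ) (s ξ : ℝ) (i : Fin (m + 1)) (f : Fin (m + 1) → Fin (m + 1) → ℝ)
    (hf : ∀ a b, f a b = if a = i ∨ b = i then ξ else 0) :
    FF (V := Fin (m + 1)) γ β p s f (fun _ _ => 1)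
      = FF (V := Unit ⊕ Fin m) γ β p s (xiU m ξ) (Sum.elim (fun _ _ => 1) (fun _ _ => 1)) := by
  let e : Unit ⊕ Fin m ≃ Fin (m + 1) := (Equiv.sumComm Unit (Fin m)).trans
    ((Equiv.optionEquivSumPUnit (Fin m)).symm.trans (finSuccEquiv' i).symm)
  have e1 : ∀ a, e (Sum.inl a) = i := by
    intro a
    simp [e]
  have e2 : ∀ j, e (Sum.inr j) = i.succAbove j := by
    intro j
    simp [e]
  rw [FF_equiv γ β p s e]
  congr 1
  · funext a b
    rw [hf]
    rcases a with a | a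
    · rw [e1, if_pos (Or.inl rfl)]; rfl
    · rcases b with b | b
      · rw [e1, if_pos (Or.inr rfl)]; rfl
      · rw [e2, e2, if_neg]
        · rfl
        · rintro (h | h)
          · exact Fin.succAbove_ne i a h
          · exact Fin.succAbove_ne i b h
  · funext a
    rcases a with a | a <;> rfl

/-- limit coefficients -/
noncomputable def cx (γ β : ℕ → ℝ) (p : ℕ) (x : CP p) : ℂ :=
  wgt β p x * Complex.exp (-(1 / 2 * ∑ y : CP p, gg γ β p y * ((qq γ p x y ^ 2 : ℝ) : ℂ)))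

/-- limit drifts -/
noncomputable def mx (γ β : ℕ → ℝ) (p : ℕ) (x : CP p) : ℂ :=
  ∑ y : CP p, gg γ β p y * ((qq γ p x y * (lst x * lst y) : ℝ) : ℂ)

lemma tendsto_site (γ β : ℕ → ℝ) (p : ℕ) (ξ : ℝ) (x : CP p) :
    Tendsto (fun m : ℕ => wgt β p x * FF (V := Fin m) γ β p (Real.sqrt ((m + 1 : ℕ) : ℝ))⁻¹
      (fun _ _ => 0) (fun _ y => Complex.exp (-((((Real.sqrt ((m + 1 : ℕ) : ℝ))⁻¹) ^ 2 / 2 *
        (qq γ p x y + ξ * (lst x * lst y)) ^ 2 : ℝ) : ℂ)))) atTop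
      (𝓝 (cx γ β p x * Complex.exp (-(ξ * mx γ β p x) - (ξ : ℂ) ^ 2 / 2))) := by
  have h := (tendsto_FF_T γ β p (LT_all γ β p) (fun N => (Real.sqrt ((N + 1 : ℕ) : ℝ))⁻¹) (seq_s 1)
    (fun y => (qq γ p x y + ξ * (lst x * lst y)) ^ 2)).const_mul (wgt β p x)
  refine h.trans (le_of_eq ?_)
  congr 1
  unfold cx mx
  rw [mul_assoc, ← Complex.exp_add]
  congr 2
  have h1 : ∀ y : CP p, gg γ β p y * (((qq γ p x y + ξ * (lst x * lst y)) ^ 2 : ℝ) : ℂ)
      = gg γ β p y * ((qq γ p x y ^ 2 : ℝ) : ℂ)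
        + 2 * ξ * (gg γ β p y * ((qq γ p x y * (lst x * lst y) : ℝ) : ℂ))
        + (ξ : ℂ) ^ 2 * gg γ β p y := by
    intro y
    have h2 : (qq γ p x y + ξ * (lst x * lst y)) ^ 2
        = qq γ p x y ^ 2 + 2 * ξ * (qq γ p x y * (lst x * lst y)) + ξ ^ 2 := by
      have h3 := lst_sq x
      have h4 := lst_sq y
      calc (qq γ p x y + ξ * (lst x * lst y)) ^ 2
          = qq γ p x y ^ 2 + 2 * ξ * (qq γ p x y * (lst x * lst y))
            + ξ ^ 2 * ((lst x * lst x) * (lst y * lst y)) := by ring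
        _ = _ := by rw [h3, h4]; ring
    rw [h2]
    push_cast
    ring
  simp_rw [h1, sum_add_distrib, ← mul_sum, sum_gg]
  ring

/-- limit of the characteristic function -/
theorem tendsto_char (γ β : ℕ → ℝ) (p : ℕ) (ξ : ℝ) :
    Tendsto (fun m : ℕ => FF (V := Unit ⊕ Fin m) γ β p (Real.sqrt ((m + 1 : ℕ) : ℝ))⁻¹
      (xiU m ξ) (Sum.elim (fun _ _ => 1) (fun _ _ => 1))) atTop
      (𝓝 (∑ x : CP p, cx γ β p x * Complex.exp (-(ξ * mx γ β p x) - (ξ : ℂ) ^ 2 / 2))) := by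
  have h := tendsto_finsetSum (univ : Finset (CP p)) fun x _ => tendsto_site γ β p ξ x
  refine h.congr fun m => ?_
  rw [FF_unit]
  refine sum_congr rfl fun x _ => ?_
  rw [mul_one]

/-- unitarity bound on the limit terms -/
theorem norm_cx_le (γ β : ℕ → ℝ) (p : ℕ) (x : CP p) (ξ : ℝ) :
    ‖cx γ β p x‖ * Real.exp (-(ξ * (mx γ β p x).re) - ξ ^ 2 / 2) ≤ 1 := by
  have h := (tendsto_site γ β p ξ x).norm
  have h1 : ‖cx γ β p x * Complex.exp (-(ξ * mx γ β p x) - (ξ : ℂ) ^ 2 / 2)‖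
      = ‖cx γ β p x‖ * Real.exp (-(ξ * (mx γ β p x).re) - ξ ^ 2 / 2) := by
    rw [norm_mul, Complex.norm_exp]
    congr 2
    have h2 : ((ξ : ℂ) ^ 2 / 2) = ((ξ ^ 2 / 2 : ℝ) : ℂ) := by push_cast; ring
    rw [h2, Complex.sub_re, Complex.neg_re, Complex.ofReal_re, Complex.re_ofReal_mul]
  rw [← h1]
  refine le_of_tendsto h (Eventually.of_forall fun m => ?_)
  have h3 := FF_unit γ β p m (Real.sqrt ((m + 1 : ℕ) : ℝ))⁻¹ ξ (fun z => if z = x then 1 else 0)
  have h4 : ∑ z : CP p, wgt β p z * (if z = x then (1 : ℂ) else 0) * FF (V := Fin m) γ β p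
        (Real.sqrt ((m + 1 : ℕ) : ℝ))⁻¹ (fun _ _ => 0)
        (fun _ y => Complex.exp (-((((Real.sqrt ((m + 1 : ℕ) : ℝ))⁻¹) ^ 2 / 2 *
          (qq γ p z y + ξ * (lst z * lst y)) ^ 2 : ℝ) : ℂ)))
      = wgt β p x * FF (V := Fin m) γ β p (Real.sqrt ((m + 1 : ℕ) : ℝ))⁻¹
      (fun _ _ => 0) (fun _ y => Complex.exp (-((((Real.sqrt ((m + 1 : ℕ) : ℝ))⁻¹) ^ 2 / 2 *
        (qq γ p x y + ξ * (lst x * lst y)) ^ 2 : ℝ) : ℂ))) := by
    rw [sum_eq_single x]
    · simp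
    · intro z _ hz
      rw [if_neg hz]
      ring
    · intro h; exact absurd (mem_univ x) h
  rw [h4] at h3
  rw [← h3]
  refine norm_FF_le γ β p _ _ _
    (Sum.elim (fun _ k b => if b = x.1 k then 1 else 0) (fun _ _ _ => 1))
    (Sum.elim (fun _ k b => if b = x.2 k then 1 else 0) (fun _ _ _ => 1)) ?_ ?_ ?_
  · rintro (i | j) k b
    · simp only [Sum.elim_inl]; split_ifs <;> simp
    · simp
  · rintro (i | j) k b
    · simp only [Sum.elim_inl]; split_ifs <;> simp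
    · simp
  · rintro (i | j) z
    · simp only [Sum.elim_inl]
      exact indicator_prod z x
    · simp

end Vale.Agent.P367.Lim
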