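import Vale.Agent.P367.Lim.Model1
import Vale.Agent.P367.Lim.Model2

namespace Vale.Agent.P367.Lim

open Finset ComplexConjugate MeasureTheory ProbabilityTheory Filter Topology ENNReal
  Vale.Agent.P367.Gap

variable {n : ℕ}

/-- extension of finitely many angles -/
noncomputable def extA {p : ℕ} (γ : Fin p → ℝ) : ℕ → ℝ := fun k => if h : k < p then γ ⟨k, h⟩ else 0

lemma extA_apply {p : ℕ} (γ : Fin p → ℝ) (k : Fin p) : extA γ k = γ k := by
  simp [extA, k.2]

lemma state_circ (J : Pair n → ℝ) (p : ℕ) (γ β : Fin p → ℝ) (s : Conf n) :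
    qaoaState J p γ β s
      = circ (fun k => matL (mixU n (extA β k))) (extA γ) (cE J) (plusH n) p s := by
  rw [circ_eq_qaoa J p γ β (extA γ) (extA β) (extA_apply γ) (extA_apply β)]

lemma continuous_state (p : ℕ) (γ β : Fin p → ℝ) (s : Conf n) :
    Continuous fun J : Pair n → ℝ => qaoaState J p γ β s := by
  have h1 := continuous_circ (fun k => matL (mixU n (extA β k))) (extA γ) (plusH n) p
  have h2 : Continuous fun J : Pair n → ℝ =>
      (circ (fun k => matL (mixU n (extA β k))) (extA γ) (cE J) (plusH n) p) s :=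
    (PiLp.continuous_apply 2 _ s).comp h1
  refine h2.congr fun J => ?_
  exact (state_circ J p γ β s).symm

lemma sum_state_sq (J : Pair n → ℝ) (p : ℕ) (γ β : Fin p → ℝ) :
    ∑ s, ‖qaoaState J p γ β s‖ ^ 2 = 1 := by
  have h1 := norm_circ_real (fun k => matL (mixU n (extA β k)))
    (fun k v => norm_matL _ (mixU_unitary _) v) (extA γ) J (plusH n) p
  rw [norm_plusH, EuclideanSpace.norm_eq] at h1
  have h2 : ∑ s, ‖circ (fun k => matL (mixU n (extA β k))) (extA γ) (cE J) (plusH n) p s‖ ^ 2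
      = 1 := by
    have h3 := congrArg (fun x : ℝ => x ^ 2) h1
    simp only at h3
    rw [Real.sq_sqrt (Finset.sum_nonneg fun s _ => by positivity)] at h3
    rw [h3]; norm_num
  simp only [state_circ]
  exact h2

lemma state_sq_le (J : Pair n → ℝ) (p : ℕ) (γ β : Fin p → ℝ) (s : Conf n) :
    ‖qaoaState J p γ β s‖ ^ 2 ≤ 1 := by
  rw [← sum_state_sq J p γ β]
  exact single_le_sum (f := fun s => ‖qaoaState J p γ β s‖ ^ 2) (fun _ _ => by positivity)
    (mem_univ s)

/-- one-configuration part of the aligned field law -/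
noncomputable def alf1 (p : ℕ) (γ β : Fin p → ℝ) (i : Fin n) (s : Conf n) : Measure ℝ :=
  ((couplingLaw n).withDensity (fun J => ENNReal.ofReal (‖qaoaState J p γ β s‖ ^ 2))).map
    (fun J => tt (uvec i) s J)

/-- law of the aligned field of a uniformly chosen site -/
noncomputable def alf (n p : ℕ) (γ β : Fin p → ℝ) : Measure ℝ :=
  ((n : ℝ≥0∞)⁻¹) • ∑ i : Fin n, ∑ s : Conf n, alf1 p γ β i s

instance : IsProbabilityMeasure (couplingLaw n) := by
  unfold couplingLaw
  infer_instance

lemma measurable_w (p : ℕ) (γ β : Fin p → ℝ) (s : Conf n) :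
    Measurable fun J : Pair n → ℝ => ENNReal.ofReal (‖qaoaState J p γ β s‖ ^ 2) :=
  ((continuous_state p γ β s).norm.pow 2).measurable.ennreal_ofReal

instance (p : ℕ) (γ β : Fin p → ℝ) (s : Conf n) : IsFiniteMeasure
    ((couplingLaw n).withDensity (fun J => ENNReal.ofReal (‖qaoaState J p γ β s‖ ^ 2))) := by
  refine isFiniteMeasure_withDensity ?_
  refine ne_of_lt (lt_of_le_of_lt (lintegral_mono (g := fun _ => 1) fun J => ?_) ?_)
  · simp only
    exact ENNReal.ofReal_le_one.2 (state_sq_le J p γ β s)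
  · simp

instance (p : ℕ) (γ β : Fin p → ℝ) (i : Fin n) (s : Conf n) : IsFiniteMeasure (alf1 p γ β i s) := by
  unfold alf1
  infer_instance

lemma integral_alf1 {E : Type*} [NormedAddCommGroup E] [NormedSpace ℝ E]
    (p : ℕ) (γ β : Fin p → ℝ) (i : Fin n) (s : Conf n) (f : ℝ → E) (hf : StronglyMeasurable f) :
    ∫ x, f x ∂(alf1 p γ β i s)
      = ∫ J, (‖qaoaState J p γ β s‖ ^ 2) • f (tt (uvec i) s J) ∂(couplingLaw n) := by
  unfold alf1
  rw [integral_map (measurable_tt _ _).aemeasurable hf.aestronglyMeasurable,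
    integral_withDensity_eq_integral_toReal_smul (measurable_w p γ β s)
      (Eventually.of_forall fun J => ENNReal.ofReal_lt_top)]
  congr 1
  funext J
  rw [ENNReal.toReal_ofReal (by positivity)]

lemma integrable_alf1_term {E : Type*} [NormedAddCommGroup E] [NormedSpace ℝ E]
    (p : ℕ) (γ β : Fin p → ℝ) (i : Fin n) (s : Conf n) (f : ℝ → E) (hf : StronglyMeasurable f)
    (C : ℝ) (hC : ∀ x, ‖f x‖ ≤ C) :
    Integrable (fun J => (‖qaoaState J p γ β s‖ ^ 2) • f (tt (uvec i) s J)) (couplingLaw n) := by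
  refine (integrable_const C).mono' ?_ (Eventually.of_forall fun J => ?_)
  · refine StronglyMeasurable.aestronglyMeasurable ?_
    exact ((continuous_state p γ β s).norm.pow 2).stronglyMeasurable.smul
      (hf.comp_measurable (measurable_tt _ _))
  · rw [norm_smul]
    have h1 := state_sq_le J p γ β s
    have h2 := hC (tt (uvec i) s J)
    have h3 : ‖(‖qaoaState J p γ β s‖ ^ 2)‖ ≤ 1 := by
      rw [Real.norm_eq_abs, abs_of_nonneg (by positivity)]
      exact h1
    calc ‖(‖qaoaState J p γ β s‖ ^ 2)‖ * ‖f (tt (uvec i) s J)‖ ≤ 1 * C :=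
          mul_le_mul h3 h2 (norm_nonneg _) (by norm_num)
      _ = C := one_mul C

/-- integrals against the aligned field law -/
theorem integral_alf {E : Type*} [NormedAddCommGroup E] [NormedSpace ℝ E]
    (p : ℕ) (γ β : Fin p → ℝ) (f : ℝ → E) (hf : StronglyMeasurable f)
    (C : ℝ) (hC : ∀ x, ‖f x‖ ≤ C) :
    ∫ x, f x ∂(alf n p γ β) = ((n : ℝ)⁻¹) • ∑ i : Fin n,
      ∫ J, (∑ s, (‖qaoaState J p γ β s‖ ^ 2) • f (tt (uvec i) s J)) ∂(couplingLaw n) := by
  have hint : ∀ (i : Fin n) (s : Conf n), Integrable f (alf1 p γ β i s) := by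
    intro i s
    exact (integrable_const C).mono' hf.aestronglyMeasurable (Eventually.of_forall hC)
  unfold alf
  rw [integral_smul_measure, integral_finsetSum_measure]
  · congr 1
    · simp
    · refine sum_congr rfl fun i _ => ?_
      rw [integral_finsetSum_measure fun s _ => hint i s, integral_finsetSum]
      · refine sum_congr rfl fun s _ => ?_
        exact integral_alf1 p γ β i s f hf
      · intro s _
        exact integrable_alf1_term p γ β i s f hf C hC
  · intro i _
    exact integrable_finsetSum_measure.2 fun s _ => hint i s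

lemma isFinite_alf (p : ℕ) (γ β : Fin p → ℝ) (hn : 0 < n) : IsFiniteMeasure (alf n p γ β) := by
  unfold alf
  have h1 : IsFiniteMeasure (∑ i : Fin n, ∑ s : Conf n, alf1 p γ β i s) := by infer_instance
  have h2 : ((n : ℝ≥0∞)⁻¹) ≠ ∞ := by
    rw [Ne, ENNReal.inv_eq_top]
    exact_mod_cast hn.ne'
  exact Measure.smul_finite _ h2

lemma isProb_alf (p : ℕ) (γ β : Fin p → ℝ) (hn : 0 < n) : IsProbabilityMeasure (alf n p γ β) := by
  have hfin := isFinite_alf p γ β hn
  have h := integral_alf (n := n) p γ β (fun _ => (1 : ℝ)) stronglyMeasurable_const 1 (by simp)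
  have h1 : ∫ J, (∑ s, (‖qaoaState J p γ β s‖ ^ 2) • (1 : ℝ)) ∂(couplingLaw n) = 1 := by
    simp only [smul_eq_mul, mul_one, sum_state_sq]
    simp
  simp only [h1] at h
  rw [integral_const, sum_const, card_univ, Fintype.card_fin, nsmul_eq_mul, smul_eq_mul,
    smul_eq_mul, mul_one, mul_one, inv_mul_cancel₀ (by exact_mod_cast hn.ne')] at h
  refine ⟨?_⟩
  rw [Measure.real, ENNReal.toReal_eq_one_iff] at h
  exact h

/-- probabilities under the aligned field law -/
theorem real_alf (p : ℕ) (γ β : Fin p → ℝ) (S : Set ℝ) (hS : MeasurableSet S) :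
    (alf n p γ β).real S = ((n : ℝ)⁻¹) * ∑ i : Fin n,
      ∫ J, (∑ s, (‖qaoaState J p γ β s‖ ^ 2) * S.indicator (fun _ => (1 : ℝ)) (tt (uvec i) s J))
        ∂(couplingLaw n) := by
  have h := integral_alf (n := n) p γ β (S.indicator (fun _ => (1 : ℝ)))
    (stronglyMeasurable_const.indicator hS) 1 (by
      intro x
      refine (norm_indicator_le_norm_self _ _).trans ?_
      simp)
  rw [integral_indicator hS] at h
  simp only [integral_const, smul_eq_mul, mul_one] at h
  rw [← h]
  simp [Measure.real]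

/-- exact characteristic function of the aligned field law -/
theorem char_alf (m p : ℕ) (γ β : Fin p → ℝ) (ξ : ℝ) :
    ∫ x, Complex.exp (-(Complex.I * ξ * x)) ∂(alf (m + 1) p γ β)
      = FF (V := Unit ⊕ Fin m) (extA γ) (extA β) p (Real.sqrt ((m + 1 : ℕ) : ℝ))⁻¹
        (xiU m ξ) (Sum.elim (fun _ _ => 1) (fun _ _ => 1)) := by
  have hcont : Continuous fun x : ℝ => Complex.exp (-(Complex.I * ξ * x)) := by fun_prop
  have h := integral_alf (n := m + 1) p γ β (fun x : ℝ => Complex.exp (-(Complex.I * ξ * x)))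
    hcont.stronglyMeasurable 1 (by
      intro x
      have : -(Complex.I * (ξ : ℂ) * (x : ℂ)) = -(Complex.I * ((ξ * x : ℝ) : ℂ)) := by
        push_cast; ring
      rw [this, norm_exp_neg_I])
  rw [h]
  have h1 : ∀ i : Fin (m + 1), ∫ J, (∑ s, (‖qaoaState J p γ β s‖ ^ 2) •
      Complex.exp (-(Complex.I * ξ * ((tt (uvec i) s J : ℝ) : ℂ)))) ∂(couplingLaw (m + 1))
      = FF (V := Unit ⊕ Fin m) (extA γ) (extA β) p (Real.sqrt ((m + 1 : ℕ) : ℝ))⁻¹
        (xiU m ξ) (Sum.elim (fun _ _ => 1) (fun _ _ => 1)) := by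
    intro i
    rw [← FF_site (extA γ) (extA β) p m _ ξ i (xim i ξ) (fun a b => rfl),
      ← char_eq p γ β (extA γ) (extA β) (extA_apply γ) (extA_apply β) i ξ]
    congr 1
    funext J
    refine sum_congr rfl fun s _ => ?_
    rw [exp_weight, Complex.real_smul]
  simp only [h1, sum_const, card_univ, Fintype.card_fin, nsmul_eq_mul]
  rw [Complex.real_smul]
  push_cast
  have : ((m : ℂ) + 1) ≠ 0 := by exact_mod_cast Nat.succ_ne_zero m
  field_simp

/-- convergence of the characteristic function of the aligned field law -/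
theorem tendsto_char_alf (p : ℕ) (γ β : Fin p → ℝ) (ξ : ℝ) :
    Tendsto (fun m : ℕ => ∫ x, Complex.exp (-(Complex.I * ξ * x)) ∂(alf (m + 1) p γ β)) atTop
      (𝓝 (∑ x : CP p, cx (extA γ) (extA β) p x *
        Complex.exp (-(ξ * mx (extA γ) (extA β) p x) - (ξ : ℂ) ^ 2 / 2))) := by
  simp_rw [char_alf]
  exact tendsto_char (extA γ) (extA β) p ξ

end Vale.Agent.P367.Lim
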