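import Vale.Agent.P367.Lim.Model3
import Vale.Agent.P367.Lim.Misfit2

namespace Vale.Agent.P367.Lim

open Finset ComplexConjugate MeasureTheory ProbabilityTheory Filter Topology ENNReal
  Vale.Agent.P367.Gap

/-- uniform misalignment at fixed depth, given tightness -/
theorem misalign_qaoa (p : ℕ)
    (hB : ∀ (n : ℕ), 1 ≤ n → ∀ (γ β : Fin p → ℝ), 3 / 4 ≤ (alf n p γ β).real {x | |x| ≤ 24}) :
    ∃ ε : ℝ, 0 < ε ∧ ∀ γ β : Fin p → ℝ,
      ∀ᶠ n : ℕ in atTop, ε ≤ (alf n p γ β).real {x | x < -1} := by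
  obtain ⟨ε, hε, h⟩ := misalign_of_charFun (Fintype.card (CP p))
  refine ⟨ε, hε, fun γ β => ?_⟩
  have h1 := h (CP p) le_rfl (cx (extA γ) (extA β) p) (mx (extA γ) (extA β) p)
    (fun x ξ => norm_cx_le (extA γ) (extA β) p x ξ) (fun m => alf (m + 1) p γ β)
    (fun m => isProb_alf p γ β (Nat.succ_pos m)) (fun ξ => tendsto_char_alf p γ β ξ)
    (Eventually.of_forall fun m => hB (m + 1) (by omega) γ β)
  rw [eventually_atTop] at h1 ⊢
  obtain ⟨M, hM⟩ := h1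
  refine ⟨M + 1, fun n hn => ?_⟩
  obtain ⟨m, rfl⟩ : ∃ m, n = m + 1 := ⟨n - 1, by omega⟩
  exact hM m (by omega)

end Vale.Agent.P367.Lim
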