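import Vale.Agent.P367.Lim.Model4
import Vale.Agent.P367.Gap.Moment

namespace Vale.Agent.P367.Lim

open Finset ComplexConjugate MeasureTheory ProbabilityTheory Filter Topology ENNReal
  Vale.Agent.P367.Gap

variable {n : ℕ}

lemma integrable_abs_tt (p : ℕ) (γ β : Fin p → ℝ) (i : Fin n) (s : Conf n) : Integrable
    (fun J : Pair n → ℝ => ‖qaoaState J p γ β s‖ ^ 2 * |tt (uvec i) s J|) (couplingLaw n) := by
  have h1 : Integrable (fun J : Pair n → ℝ => tt (uvec i) s J) (couplingLaw n) := by
    unfold tt couplingLaw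
    apply integrable_finsetSum
    intro e _
    apply Integrable.const_mul
    exact integrable_comp_eval (μ := fun _ : Pair n => gaussianReal 0 1) (i := e)
      (f := fun x => x) ((memLp_id_gaussianReal 1).integrable le_rfl)
  refine h1.abs.mono' ?_ (Filter.Eventually.of_forall fun J => ?_)
  · apply Measurable.aestronglyMeasurable
    have h3 := measurable_tt (S := Conf n) (uvec i) s
    exact (((measurable_qaoaState p γ β s)).norm.pow_const 2).mul h3.abs
  · rw [norm_mul, Real.norm_eq_abs, Real.norm_eq_abs, abs_abs, abs_of_nonneg (by positivity)]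
    calc ‖qaoaState J p γ β s‖ ^ 2 * |tt (uvec i) s J| ≤ 1 * |tt (uvec i) s J| :=
          mul_le_mul_of_nonneg_right (state_sq_le J p γ β s) (abs_nonneg _)
      _ = _ := one_mul _

/-- comparison of probabilities with integrals -/
lemma integrable_ind (p : ℕ) (γ β : Fin p → ℝ) (i : Fin n) (s : Conf n) (S : Set ℝ)
    (hS : MeasurableSet S) : Integrable (fun J : Pair n → ℝ =>
      ‖qaoaState J p γ β s‖ ^ 2 * S.indicator (fun _ => (1 : ℝ)) (tt (uvec i) s J))
      (couplingLaw n) :=
  integrable_alf1_term p γ β i s (S.indicator (fun _ => (1 : ℝ)))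
    (stronglyMeasurable_const.indicator hS) 1 (by
      intro x
      refine (norm_indicator_le_norm_self _ _).trans ?_
      simp)

theorem tight_alf (p : ℕ) (n : ℕ) (hn : 1 ≤ n) (γ β : Fin p → ℝ) :
    3 / 4 ≤ (alf n p γ β).real {x | |x| ≤ 24} := by
  have hnr : (0 : ℝ) < n := by exact_mod_cast hn
  have hS : MeasurableSet {x : ℝ | |x| ≤ 24} := measurableSet_le measurable_abs measurable_const
  rw [real_alf p γ β _ hS]
  have hm := first_moment (n := n) p γ β (fun s => measurable_qaoaState p γ β s)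
    (fun J => norm_qaoaState J p γ β)
  have h1 : ∀ i : Fin n, 1 - (1 / 24) * ∫ J : Pair n → ℝ,
      (∑ s, ‖qaoaState J p γ β s‖ ^ 2 * |tt (uvec i) s J|) ∂(couplingLaw n)
      ≤ ∫ J, (∑ s, (‖qaoaState J p γ β s‖ ^ 2) *
        ({x : ℝ | |x| ≤ 24}).indicator (fun _ => (1 : ℝ)) (tt (uvec i) s J)) ∂(couplingLaw n) := by
    intro i
    have e1 : 1 - (1 / 24) * ∫ J : Pair n → ℝ,
        (∑ s, ‖qaoaState J p γ β s‖ ^ 2 * |tt (uvec i) s J|) ∂(couplingLaw n)
        = ∫ J : Pair n → ℝ, (1 - (1 / 24) *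
          (∑ s, ‖qaoaState J p γ β s‖ ^ 2 * |tt (uvec i) s J|)) ∂(couplingLaw n) := by
      rw [integral_sub (integrable_const _), integral_const_mul]
      · simp
      · exact (integrable_finsetSum _ fun s _ => integrable_abs_tt p γ β i s).const_mul _
    rw [e1]
    refine integral_mono ?_ ?_ ?_
    · exact (integrable_const _).sub
        ((integrable_finsetSum _ fun s _ => integrable_abs_tt p γ β i s).const_mul _)
    · exact integrable_finsetSum _ fun s _ => integrable_ind p γ β i s _ hS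
    · intro J
      simp only
      have e2 : 1 - 1 / 24 * ∑ s, ‖qaoaState J p γ β s‖ ^ 2 * |tt (uvec i) s J|
          = ∑ s, (‖qaoaState J p γ β s‖ ^ 2
            - 1 / 24 * (‖qaoaState J p γ β s‖ ^ 2 * |tt (uvec i) s J|)) := by
        rw [sum_sub_distrib, sum_state_sq, mul_sum]
      rw [e2]
      refine sum_le_sum fun s _ => ?_
      have h2 : 1 - (1 / 24) * |tt (uvec i) s J|
          ≤ ({x : ℝ | |x| ≤ 24}).indicator (fun _ => (1 : ℝ)) (tt (uvec i) s J) := by
        by_cases h : |tt (uvec i) s J| ≤ 24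
        · rw [Set.indicator_of_mem (by exact h)]
          have := abs_nonneg (tt (uvec i) s J)
          linarith
        · rw [Set.indicator_of_notMem (by exact h)]
          push Not at h
          linarith
      have h3 := mul_le_mul_of_nonneg_left h2 (show 0 ≤ ‖qaoaState J p γ β s‖ ^ 2 by positivity)
      linarith
  have h2 := sum_le_sum fun (i : Fin n) (_ : i ∈ univ) => h1 i
  rw [sum_sub_distrib, ← mul_sum] at h2
  have h3 : ∑ i : Fin n, ∫ J : Pair n → ℝ,
      (∑ s, ‖qaoaState J p γ β s‖ ^ 2 * |tt (uvec i) s J|) ∂(couplingLaw n) ≤ 6 * n := hm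
  have h4 : (3 / 4 : ℝ) * n ≤ ∑ i : Fin n, ∫ J, (∑ s, (‖qaoaState J p γ β s‖ ^ 2) *
        ({x : ℝ | |x| ≤ 24}).indicator (fun _ => (1 : ℝ)) (tt (uvec i) s J)) ∂(couplingLaw n) := by
    refine le_trans ?_ h2
    simp only [sum_const, card_univ, Fintype.card_fin, nsmul_eq_mul, mul_one]
    linarith
  calc (3 / 4 : ℝ) = (n : ℝ)⁻¹ * (3 / 4 * n) := by field_simp
    _ ≤ _ := mul_le_mul_of_nonneg_left h4 (by positivity)

/-- from misalignment probability to an energy gap -/
theorem gap_of_alf (p : ℕ) (n : ℕ) (hn : 1 ≤ n) (γ β : Fin p → ℝ) (ε : ℝ) (hε : 0 ≤ ε)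
    (h : ε ≤ (alf n p γ β).real {x | x < -1}) :
    qaoaValue n p γ β ≤ groundValue n - ε ^ 2 / 4 := by
  have hnr : (0 : ℝ) < n := by exact_mod_cast hn
  have hS : MeasurableSet {x : ℝ | x < -1} := measurableSet_lt measurable_id measurable_const
  have hprob := isProb_alf p γ β (n := n) hn
  have hε1 : ε ≤ 1 := h.trans measureReal_le_one
  refine gain_of_misalign (by omega) p γ β ε hε hε1 ?_
  rw [real_alf p γ β _ hS] at h
  have h1 : ∀ i : Fin n, ∫ J, (∑ s, (‖qaoaState J p γ β s‖ ^ 2) *
        ({x : ℝ | x < -1}).indicator (fun _ => (1 : ℝ)) (tt (uvec i) s J)) ∂(couplingLaw n)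
      ≤ ∫ J : Pair n → ℝ, ∑ s, ‖qaoaState J p γ β s‖ ^ 2 * max (-(tt (uvec i) s J)) 0
        ∂(gLaw (Pair n)) := by
    intro i
    refine integral_mono ?_ ?_ ?_
    · exact integrable_finsetSum _ fun s _ => integrable_ind p γ β i s _ hS
    · exact integrable_finsetSum _ fun s _ => integrable_mis (fun J => qaoaState J p γ β) (uvec i)
        (fun s => measurable_qaoaState p γ β s) (fun J => norm_qaoaState J p γ β) s
    · intro J
      simp only
      refine sum_le_sum fun s _ => ?_
      refine mul_le_mul_of_nonneg_left ?_ (by positivity)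
      by_cases h : tt (uvec i) s J < -1
      · rw [Set.indicator_of_mem (by exact h)]
        exact le_max_of_le_left (by linarith)
      · rw [Set.indicator_of_notMem (by exact h)]
        exact le_max_right _ _
  have h2 := sum_le_sum fun (i : Fin n) (_ : i ∈ univ) => h1 i
  refine le_trans ?_ h2
  have h3 := mul_le_mul_of_nonneg_left h hnr.le
  rwa [← mul_assoc, mul_inv_cancel₀ hnr.ne', one_mul] at h3

/-- **Uniform gap at fixed depth.** -/
theorem depth_gap (p : ℕ) : ∃ η : ℝ, 0 < η ∧ ∀ γ β : Fin p → ℝ,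
    ∀ᶠ n : ℕ in atTop, qaoaValue n p γ β ≤ groundValue n - η := by
  obtain ⟨ε, hε, h⟩ := misalign_qaoa p (fun n hn γ β => tight_alf p n hn γ β)
  refine ⟨ε ^ 2 / 4, by positivity, fun γ β => ?_⟩
  filter_upwards [h γ β, eventually_ge_atTop 1] with n hn hn1
  exact gap_of_alf p n hn1 γ β ε hε.le hn

end Vale.Agent.P367.Lim
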