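import Mathlib
import Vale.Agent.P367.Gap.Defs

namespace Vale.Agent.P367.Lim

open Finset ComplexConjugate Vale.Agent.P367.Gap

/-- one-qubit matrix element of `exp(-iβX)` -/
noncomputable def mix (β : ℝ) (b b' : Bool) : ℂ :=
  if b = b' then (Real.cos β : ℂ) else -(Complex.I * Real.sin β)

lemma mix_unitary (β : ℝ) (a b : Bool) :
    ∑ z, mix β z a * conj (mix β z b) = if a = b then 1 else 0 := by
  have h : (Real.cos β : ℂ) * Real.cos β + (Real.sin β : ℂ) * Real.sin β = 1 := by
    have := Real.cos_sq_add_sin_sq β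
    rw [← Complex.ofReal_mul, ← Complex.ofReal_mul, ← Complex.ofReal_add,
      ← pow_two, ← pow_two, this, Complex.ofReal_one]
  have hI := Complex.I_mul_I
  cases a <;> cases b <;>
    simp only [mix, Fintype.univ_bool, mem_singleton, sum_insert, sum_singleton, if_true,
      Bool.false_eq_true, Bool.true_eq_false, if_false, not_false_eq_true,
      map_neg, map_mul, Complex.conj_I, Complex.conj_ofReal]
  · linear_combination h - (Real.sin β : ℂ) ^ 2 * hI
  · ring
  · ring
  · linear_combination h - (Real.sin β : ℂ) ^ 2 * hI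

/-- one-sided single-site path -/
abbrev Pth (p : ℕ) : Type := Fin (p + 1) → Bool

/-- contour path of a single site: ket path and bra path -/
abbrev CP (p : ℕ) : Type := Pth p × Pth p

/-- one-sided path weight -/
noncomputable def kap (β : ℕ → ℝ) : (p : ℕ) → Pth p → ℂ
  | 0, _ => (((Real.sqrt 2)⁻¹ : ℝ) : ℂ)
  | p + 1, a => mix (β p) (a (Fin.last (p + 1))) (a (Fin.last p).castSucc) * kap β p (Fin.init a)

/-- closed contour weight -/
noncomputable def wgt (β : ℕ → ℝ) (p : ℕ) (x : CP p) : ℂ :=
  kap β p x.1 * conj (kap β p x.2) * (if x.1 (Fin.last p) = x.2 (Fin.last p) then 1 else 0)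

/-- truncated path -/
def ini {p : ℕ} (x : CP (p + 1)) : CP p := (Fin.init x.1, Fin.init x.2)

/-- interaction through the phases of layers `< p` -/
noncomputable def qq (γ : ℕ → ℝ) (p : ℕ) (x y : CP p) : ℝ :=
  ∑ k : Fin p, γ k * (spin (x.1 k.castSucc) * spin (y.1 k.castSucc)
    - spin (x.2 k.castSucc) * spin (y.2 k.castSucc))

/-- interaction including the phase at the last time -/
noncomputable def qh (γ : ℕ → ℝ) (p : ℕ) (x y : CP p) : ℝ :=
  ∑ k : Fin (p + 1), γ k * (spin (x.1 k) * spin (y.1 k) - spin (x.2 k) * spin (y.2 k))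

lemma qq_succ (γ : ℕ → ℝ) (p : ℕ) (x y : CP (p + 1)) :
    qq γ (p + 1) x y = qh γ p (ini x) (ini y) := rfl

lemma qh_eq (γ : ℕ → ℝ) (p : ℕ) (x y : CP p) :
    qh γ p x y = qq γ p x y + γ p * (spin (x.1 (Fin.last p)) * spin (y.1 (Fin.last p))
      - spin (x.2 (Fin.last p)) * spin (y.2 (Fin.last p))) := by
  unfold qh qq
  rw [Fin.sum_univ_castSucc]
  rfl

/-- last spin of the ket path -/
noncomputable def lst {p : ℕ} (x : CP p) : ℝ := spin (x.1 (Fin.last p))

variable {V : Type} [Fintype V] [DecidableEq V]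

/-- many-site amplitude with insertions `u k` -/
noncomputable def amp (β : ℕ → ℝ) : (p : ℕ) → (ℕ → (V → Bool) → ℂ) → (V → Bool) → ℂ
  | 0, u, z => u 0 z * ∏ _j : V, (((Real.sqrt 2)⁻¹ : ℝ) : ℂ)
  | p + 1, u, z => u (p + 1) z * ∑ z' : V → Bool, (∏ j, mix (β p) (z j) (z' j)) * amp β p u z'

lemma tensor_unitary (β : ℝ) (a b : V → Bool) :
    ∑ z : V → Bool, (∏ j, mix β (z j) (a j)) * conj (∏ j, mix β (z j) (b j))
      = if a = b then 1 else 0 := by
  have h1 : ∀ z : V → Bool, (∏ j, mix β (z j) (a j)) * conj (∏ j, mix β (z j) (b j))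
      = ∏ j, (mix β (z j) (a j) * conj (mix β (z j) (b j))) := by
    intro z
    rw [map_prod, prod_mul_distrib]
  simp_rw [h1]
  have h2 := (Finset.prod_univ_sum (fun _ : V => (univ : Finset Bool))
    (fun j z => mix β z (a j) * conj (mix β z (b j))))
  rw [Fintype.piFinset_univ] at h2
  rw [← h2]
  simp_rw [mix_unitary]
  by_cases h : a = b
  · subst h; simp
  · rw [if_neg h]
    obtain ⟨j, hj⟩ := Function.ne_iff.1 h
    exact prod_eq_zero (mem_univ j) (if_neg hj)

lemma sum_norm_sq_tensor (β : ℝ) (f : (V → Bool) → ℂ) :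
    ∑ z : V → Bool, ‖∑ z' : V → Bool, (∏ j, mix β (z j) (z' j)) * f z'‖ ^ 2
      = ∑ z', ‖f z'‖ ^ 2 := by
  have hc : ((∑ z : V → Bool, ‖∑ z' : V → Bool, (∏ j, mix β (z j) (z' j)) * f z'‖ ^ 2 : ℝ) : ℂ)
      = ((∑ z', ‖f z'‖ ^ 2 : ℝ) : ℂ) := by
    push_cast
    simp_rw [← Complex.mul_conj']
    calc ∑ z : V → Bool, (∑ z', (∏ j, mix β (z j) (z' j)) * f z')
            * conj (∑ z', (∏ j, mix β (z j) (z' j)) * f z')
        = ∑ z : V → Bool, ∑ a : V → Bool, ∑ b : V → Bool,
            ((∏ j, mix β (z j) (a j)) * conj (∏ j, mix β (z j) (b j))) * (f a * conj (f b)) := by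
          refine sum_congr rfl fun z _ => ?_
          rw [map_sum, sum_mul_sum]
          refine sum_congr rfl fun a _ => sum_congr rfl fun b _ => ?_
          rw [map_mul]
          ring
      _ = ∑ a : V → Bool, ∑ b : V → Bool,
            (∑ z : V → Bool, (∏ j, mix β (z j) (a j)) * conj (∏ j, mix β (z j) (b j)))
              * (f a * conj (f b)) := by
          rw [sum_comm]
          refine sum_congr rfl fun a _ => ?_
          rw [sum_comm]
          refine sum_congr rfl fun b _ => ?_
          rw [sum_mul]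
      _ = ∑ z', f z' * conj (f z') := by
          simp_rw [tensor_unitary]
          simp
  exact_mod_cast hc

lemma sum_norm_sq_amp (β : ℕ → ℝ) (p : ℕ) (u : ℕ → (V → Bool) → ℂ)
    (hu : ∀ k z, ‖u k z‖ ≤ 1) : ∑ z, ‖amp β p u z‖ ^ 2 ≤ 1 := by
  induction p with
  | zero =>
    have h : ∀ z : V → Bool, ‖amp β 0 u z‖ ^ 2 ≤ (2⁻¹ : ℝ) ^ Fintype.card V := by
      intro z
      simp only [amp, norm_mul, prod_const, card_univ, norm_pow]
      have h1 : ‖(((Real.sqrt 2)⁻¹ : ℝ) : ℂ)‖ = (Real.sqrt 2)⁻¹ := by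
        rw [Complex.norm_real, Real.norm_eq_abs, abs_of_nonneg (by positivity)]
      rw [h1, mul_pow, ← pow_mul, mul_comm (Fintype.card V) 2, pow_mul, inv_pow,
        Real.sq_sqrt (by norm_num)]
      have h2 : ‖u 0 z‖ ^ 2 ≤ 1 := pow_le_one₀ (norm_nonneg _) (hu 0 z)
      calc ‖u 0 z‖ ^ 2 * (2⁻¹ : ℝ) ^ Fintype.card V ≤ 1 * (2⁻¹ : ℝ) ^ Fintype.card V := by
            gcongr
        _ = _ := one_mul _
    refine (sum_le_sum fun z _ => h z).trans ?_
    rw [sum_const, card_univ, Fintype.card_fun, Fintype.card_bool, nsmul_eq_mul]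
    push_cast
    rw [← mul_pow]
    norm_num
  | succ p ih =>
    have h : ∀ z : V → Bool, ‖amp β (p + 1) u z‖ ^ 2
        ≤ ‖∑ z' : V → Bool, (∏ j, mix (β p) (z j) (z' j)) * amp β p u z'‖ ^ 2 := by
      intro z
      simp only [amp, norm_mul]
      have := hu (p + 1) z
      have h0 := norm_nonneg (∑ z' : V → Bool, (∏ j, mix (β p) (z j) (z' j)) * amp β p u z')
      gcongr
      exact mul_le_of_le_one_left h0 this
    refine (sum_le_sum fun z _ => h z).trans ?_
    rw [sum_norm_sq_tensor]
    exact ih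

/-- split off the last time of a family of paths -/
def splitE (V : Type) (p : ℕ) : (V → Pth (p + 1)) ≃ (V → Pth p) × (V → Bool) where
  toFun A := (fun j => Fin.init (A j), fun j => A j (Fin.last (p + 1)))
  invFun B := fun j => Fin.snoc (α := fun _ => Bool) (B.1 j) (B.2 j)
  left_inv A := by
    funext j
    exact Fin.snoc_init_self (A j)
  right_inv B := by
    refine Prod.ext ?_ ?_
    · funext j
      simp only [Fin.init_snoc]
    · funext j
      simp only [Fin.snoc_last]

lemma amp_path (β : ℕ → ℝ) (p : ℕ) (u : ℕ → (V → Bool) → ℂ) (z : V → Bool) :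
    amp β p u z = ∑ A : V → Pth p, (if (fun j => A j (Fin.last p)) = z then (1 : ℂ) else 0)
      * ((∏ j, kap β p (A j)) * ∏ k : Fin (p + 1), u k (fun j => A j k)) := by
  induction p generalizing z with
  | zero =>
    have h : ∀ A : V → Pth 0, (if (fun j => A j (Fin.last 0)) = z then (1 : ℂ) else 0)
        * ((∏ j, kap β 0 (A j)) * ∏ k : Fin (0 + 1), u k (fun j => A j k))
        = if A = (fun j _ => z j) then u 0 z * ∏ _j : V, (((Real.sqrt 2)⁻¹ : ℝ) : ℂ) else 0 := by
      intro A
      by_cases hA : A = (fun j _ => z j)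
      · subst hA
        simp [kap]
        ring
      · rw [if_neg hA, if_neg, zero_mul]
        intro h
        apply hA
        funext j k
        rw [← h]
        congr 1
        exact Subsingleton.elim (α := Fin 1) _ _
    simp_rw [h]
    simp [amp]
  | succ p ih =>
    rw [← (splitE V p).symm.sum_comp, Fintype.sum_prod_type]
    have h1 : ∀ (A : V → Pth p) (y : V → Bool),
        (if (fun j => (splitE V p).symm (A, y) j (Fin.last (p + 1))) = z then (1 : ℂ) else 0)
        * ((∏ j, kap β (p + 1) ((splitE V p).symm (A, y) j))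
          * ∏ k : Fin (p + 1 + 1), u k (fun j => (splitE V p).symm (A, y) j k))
        = (if y = z then (1 : ℂ) else 0) * (u (p + 1) y *
            ((∏ j, mix (β p) (y j) (A j (Fin.last p))) *
            ((∏ j, kap β p (A j)) * ∏ k : Fin (p + 1), u k (fun j => A j k)))) := by
      intro A y
      have e1 : (fun j => (splitE V p).symm (A, y) j (Fin.last (p + 1))) = y := by
        funext j; simp [splitE]
      have e2 : ∀ j, kap β (p + 1) ((splitE V p).symm (A, y) j)
          = mix (β p) (y j) (A j (Fin.last p)) * kap β p (A j) := by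
        intro j
        have hl : (splitE V p).symm (A, y) j (Fin.last (p + 1)) = y j := by simp [splitE]
        have hc : (splitE V p).symm (A, y) j (Fin.last p).castSucc = A j (Fin.last p) := by
          simp only [splitE, Equiv.coe_fn_symm_mk, Fin.snoc_castSucc]
        have hi : Fin.init ((splitE V p).symm (A, y) j) = A j := by
          simp only [splitE, Equiv.coe_fn_symm_mk, Fin.init_snoc]
        rw [kap, hl, hc, hi]
      have e3 : ∏ k : Fin (p + 1 + 1), u k (fun j => (splitE V p).symm (A, y) j k)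
          = (∏ k : Fin (p + 1), u k (fun j => A j k)) * u (p + 1) y := by
        rw [Fin.prod_univ_castSucc]
        congr 1
        · refine prod_congr rfl fun k _ => ?_
          simp only [splitE, Equiv.coe_fn_symm_mk, Fin.snoc_castSucc, Fin.val_castSucc]
        · simp only [splitE, Equiv.coe_fn_symm_mk, Fin.snoc_last, Fin.val_last]
      rw [e1, e3]
      simp_rw [e2]
      rw [prod_mul_distrib]
      ring
    simp_rw [h1]
    rw [amp]
    simp_rw [ih]
    have h2 : ∀ A : V → Pth p, ∑ y : V → Bool, (if y = z then (1 : ℂ) else 0) * (u (p + 1) y *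
            ((∏ j, mix (β p) (y j) (A j (Fin.last p))) *
            ((∏ j, kap β p (A j)) * ∏ k : Fin (p + 1), u k (fun j => A j k))))
        = u (p + 1) z * ((∏ j, mix (β p) (z j) (A j (Fin.last p))) *
            ((∏ j, kap β p (A j)) * ∏ k : Fin (p + 1), u k (fun j => A j k))) := by
      intro A
      rw [sum_eq_single z]
      · simp
      · intro y _ hy; simp [hy]
      · intro h; exact absurd (mem_univ z) h
    simp_rw [h2]
    rw [← mul_sum]
    congr 1
    simp_rw [mul_sum]
    rw [sum_comm]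
    refine sum_congr rfl fun A _ => ?_
    rw [sum_eq_single (fun j => A j (Fin.last p))]
    · simp
    · intro y _ hy
      rw [if_neg (fun h => hy h.symm)]
      ring
    · intro h; exact absurd (mem_univ _) h

/-- the two-sided sum as a sum over contour paths -/
theorem sum_amp_mul_conj (β : ℕ → ℝ) (p : ℕ) (u v : ℕ → (V → Bool) → ℂ) :
    ∑ z, amp β p u z * conj (amp β p v z) =
      ∑ X : V → CP p, (∏ j, wgt β p (X j)) *
        ((∏ k : Fin (p + 1), u k (fun j => (X j).1 k)) *
          ∏ k : Fin (p + 1), conj (v k (fun j => (X j).2 k))) := by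
  rw [← (Equiv.arrowProdEquivProdArrow V (fun _ => Pth p) (fun _ => Pth p)).symm.sum_comp,
    Fintype.sum_prod_type]
  have h1 : ∀ z : V → Bool, amp β p u z * conj (amp β p v z)
      = ∑ A : V → Pth p, ∑ B : V → Pth p,
        (if (fun j => A j (Fin.last p)) = z then (1 : ℂ) else 0) *
        (if (fun j => B j (Fin.last p)) = z then (1 : ℂ) else 0) *
        (((∏ j, kap β p (A j)) * ∏ k : Fin (p + 1), u k (fun j => A j k)) *
          conj ((∏ j, kap β p (B j)) * ∏ k : Fin (p + 1), v k (fun j => B j k))) := by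
    intro z
    rw [amp_path β p u, amp_path β p v, map_sum, sum_mul_sum]
    refine sum_congr rfl fun A _ => sum_congr rfl fun B _ => ?_
    rw [map_mul]
    have : conj (if (fun j => B j (Fin.last p)) = z then (1 : ℂ) else 0)
        = (if (fun j => B j (Fin.last p)) = z then (1 : ℂ) else 0) := by
      split_ifs <;> simp
    rw [this]
    ring
  simp_rw [h1]
  rw [sum_comm]
  refine sum_congr rfl fun A _ => ?_
  rw [sum_comm]
  refine sum_congr rfl fun B _ => ?_
  have h2 : ∑ z : V → Bool, (if (fun j => A j (Fin.last p)) = z then (1 : ℂ) else 0) *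
        (if (fun j => B j (Fin.last p)) = z then (1 : ℂ) else 0) *
        (((∏ j, kap β p (A j)) * ∏ k : Fin (p + 1), u k (fun j => A j k)) *
          conj ((∏ j, kap β p (B j)) * ∏ k : Fin (p + 1), v k (fun j => B j k)))
      = (if (fun j => A j (Fin.last p)) = (fun j => B j (Fin.last p)) then (1 : ℂ) else 0) *
        (((∏ j, kap β p (A j)) * ∏ k : Fin (p + 1), u k (fun j => A j k)) *
          conj ((∏ j, kap β p (B j)) * ∏ k : Fin (p + 1), v k (fun j => B j k))) := by
    rw [sum_eq_single (fun j => A j (Fin.last p))]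
    · by_cases h : (fun j => A j (Fin.last p)) = (fun j => B j (Fin.last p))
      · simp [h]
      · rw [if_neg h, if_neg (fun h' => h (Eq.symm h'))]
        simp
    · intro z _ hz
      rw [if_neg (fun h => hz h.symm)]
      ring
    · intro h; exact absurd (mem_univ _) h
  rw [h2]
  have h3 : ∏ j, wgt β p (((Equiv.arrowProdEquivProdArrow V (fun _ => Pth p)
      (fun _ => Pth p)).symm (A, B)) j)
      = (if (fun j => A j (Fin.last p)) = (fun j => B j (Fin.last p)) then (1 : ℂ) else 0) *
        ((∏ j, kap β p (A j)) * conj (∏ j, kap β p (B j))) := by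
    have h4 : ∀ j, wgt β p (((Equiv.arrowProdEquivProdArrow V (fun _ => Pth p)
        (fun _ => Pth p)).symm (A, B)) j) = kap β p (A j) * conj (kap β p (B j)) *
          (if A j (Fin.last p) = B j (Fin.last p) then (1 : ℂ) else 0) := fun j => rfl
    simp_rw [h4]
    rw [prod_mul_distrib, prod_mul_distrib, map_prod]
    have : ∏ j, (if A j (Fin.last p) = B j (Fin.last p) then (1 : ℂ) else 0)
        = (if (fun j => A j (Fin.last p)) = (fun j => B j (Fin.last p)) then (1 : ℂ) else 0) := by
      by_cases h : (fun j => A j (Fin.last p)) = (fun j => B j (Fin.last p))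
      · rw [if_pos h]
        exact prod_eq_one fun j _ => if_pos (congrFun h j)
      · rw [if_neg h]
        obtain ⟨j, hj⟩ := Function.ne_iff.1 h
        exact prod_eq_zero (mem_univ j) (if_neg hj)
    rw [this]
    ring
  rw [h3]
  simp only [Equiv.arrowProdEquivProdArrow, Equiv.coe_fn_symm_mk, map_mul, map_prod]
  ring

/-- unitarity bound -/
theorem norm_sum_paths_le (β : ℕ → ℝ) (p : ℕ) (u v : ℕ → (V → Bool) → ℂ)
    (hu : ∀ k z, ‖u k z‖ ≤ 1) (hv : ∀ k z, ‖v k z‖ ≤ 1) :
    ‖∑ X : V → CP p, (∏ j, wgt β p (X j)) *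
        ((∏ k : Fin (p + 1), u k (fun j => (X j).1 k)) *
          ∏ k : Fin (p + 1), conj (v k (fun j => (X j).2 k)))‖ ≤ 1 := by
  rw [← sum_amp_mul_conj]
  have h1 := sum_norm_sq_amp β p u hu
  have h2 := sum_norm_sq_amp β p v hv
  calc ‖∑ z, amp β p u z * conj (amp β p v z)‖ ≤ ∑ z, ‖amp β p u z * conj (amp β p v z)‖ :=
        norm_sum_le _ _
    _ ≤ ∑ z, (‖amp β p u z‖ ^ 2 + ‖amp β p v z‖ ^ 2) / 2 := by
        refine sum_le_sum fun z _ => ?_
        rw [norm_mul, RCLike.norm_conj]
        nlinarith [sq_nonneg (‖amp β p u z‖ - ‖amp β p v z‖)]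
    _ = ((∑ z, ‖amp β p u z‖ ^ 2) + ∑ z, ‖amp β p v z‖ ^ 2) / 2 := by
        rw [← sum_div, sum_add_distrib]
    _ ≤ 1 := by linarith

end Vale.Agent.P367.Lim
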