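import Vale.Agent.P367.Lim.Turan

namespace Vale.Agent.P367.Lim

open Finset Filter Topology MeasureTheory ProbabilityTheory
open scoped NNReal

lemma gauss_exp_quadratic (V : ℝ≥0) (hV : V ≠ 0) : ∃ κ : ℝ, 0 < κ ∧ κ ≤ 1 ∧ ∀ w : ℂ,
    ∫ x : ℝ, Complex.exp (x * w - (x : ℂ) ^ 2 / 2) ∂(gaussianReal 0 V)
      = κ * Complex.exp (((V / (2 * (1 + V)) : ℝ) : ℂ) * w ^ 2) := by
  have hV' : (0 : ℝ) < V := by exact_mod_cast pos_iff_ne_zero.mpr hV
  set A : ℂ := ((Real.sqrt (2 * Real.pi * V))⁻¹ : ℝ) *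
    (Real.pi / -(-((1 / (2 * V) + 1 / 2 : ℝ) : ℂ))) ^ (1 / 2 : ℂ) with hA
  have hmain : ∀ w : ℂ, ∫ x : ℝ, Complex.exp (x * w - (x : ℂ) ^ 2 / 2) ∂(gaussianReal 0 V)
      = A * Complex.exp (((V / (2 * (1 + V)) : ℝ) : ℂ) * w ^ 2) := by
    intro w
    rw [integral_gaussianReal_eq_integral_smul hV]
    have h1 : ∀ x : ℝ, gaussianPDFReal 0 V x • Complex.exp (x * w - (x : ℂ) ^ 2 / 2)
        = ((Real.sqrt (2 * Real.pi * V))⁻¹ : ℝ) *
          Complex.exp (-((1 / (2 * V) + 1 / 2 : ℝ) : ℂ) * x ^ 2 + w * x + 0) := by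
      intro x
      rw [gaussianPDFReal, Complex.real_smul]
      push_cast
      rw [mul_assoc, ← Complex.exp_add]
      congr 2
      have : (V : ℂ) ≠ 0 := by exact_mod_cast hV'.ne'
      field_simp
      ring
    simp_rw [h1]
    rw [integral_const_mul, integral_cexp_quadratic]
    · have hE : (0 : ℂ) - w ^ 2 / (4 * -((1 / (2 * V) + 1 / 2 : ℝ) : ℂ))
          = ((V / (2 * (1 + V)) : ℝ) : ℂ) * w ^ 2 := by
        have hr' : ((V : ℝ) / (2 * (1 + V))) = 1 / (4 * (1 / (2 * V) + 1 / 2)) := by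
          have : (1 + (V : ℝ)) ≠ 0 := by positivity
          field_simp
          ring
        rw [hr']
        generalize (1 / (2 * (V : ℝ)) + 1 / 2) = t
        push_cast
        ring
      rw [hE, hA]
      ring
    · rw [Complex.neg_re, Complex.ofReal_re]
      have : 0 < 1 / (2 * (V : ℝ)) + 1 / 2 := by positivity
      linarith
  set κ : ℝ := ∫ x : ℝ, Real.exp (-(x ^ 2 / 2)) ∂(gaussianReal 0 V) with hκ
  have hint : Integrable (fun x : ℝ => Real.exp (-(x ^ 2 / 2))) (gaussianReal 0 V) := by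
    refine (integrable_const (1 : ℝ)).mono' ?_ ?_
    · exact (Continuous.aestronglyMeasurable (by fun_prop))
    · refine Eventually.of_forall fun x => ?_
      rw [Real.norm_eq_abs, Real.abs_exp]
      exact Real.exp_le_one_iff.2 (by have := sq_nonneg x; linarith)
  have hAκ : A = κ := by
    have h := hmain 0
    simp only [mul_zero, zero_sub, ne_eq, OfNat.ofNat_ne_zero, not_false_eq_true, zero_pow,
      Complex.exp_zero, mul_one] at h
    rw [← h, hκ, ← integral_complex_ofReal]
    congr 1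
    funext x
    push_cast
    rfl
  refine ⟨κ, ?_, ?_, fun w => ?_⟩
  · exact integral_exp_pos hint
  · have : κ ≤ ∫ _x : ℝ, (1 : ℝ) ∂(gaussianReal 0 V) := by
      refine integral_mono hint (integrable_const _) fun x => ?_
      exact Real.exp_le_one_iff.2 (by have := sq_nonneg x; linarith)
    simpa using this
  · rw [hmain, hAκ]

/-- Gaussian smoothing of a probability measure through its characteristic function -/
lemma smooth_eq (lam : Measure ℝ) [IsProbabilityMeasure lam] (V : ℝ≥0) (y : ℝ) :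
    ((∫ x, Real.exp (-(V * (x - y) ^ 2 / 2)) ∂lam : ℝ) : ℂ)
      = ∫ ξ : ℝ, Complex.exp (Complex.I * ξ * y) *
          (∫ x, Complex.exp (-(Complex.I * ξ * x)) ∂lam) ∂(gaussianReal 0 V) := by
  have h1 : ∀ x : ℝ, ((Real.exp (-(V * (x - y) ^ 2 / 2)) : ℝ) : ℂ)
      = ∫ ξ : ℝ, Complex.exp (Complex.I * ξ * y) * Complex.exp (-(Complex.I * ξ * x))
          ∂(gaussianReal 0 V) := by
    intro x
    have h2 := charFun_gaussianReal (μ := 0) (v := V) (y - x)
    rw [charFun_apply_real] at h2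
    have h3 : ∀ ξ : ℝ, Complex.exp (Complex.I * ξ * y) * Complex.exp (-(Complex.I * ξ * x))
        = Complex.exp (((y - x : ℝ) : ℂ) * ξ * Complex.I) := by
      intro ξ
      rw [← Complex.exp_add]
      congr 1
      push_cast
      ring
    simp_rw [h3]
    rw [h2]
    push_cast
    congr 1
    ring
  rw [← integral_complex_ofReal]
  simp_rw [h1]
  rw [integral_integral_swap]
  · congr 1
    funext ξ
    rw [integral_const_mul]
  · refine (integrable_const (1 : ℝ)).mono' ?_ ?_
    · refine Continuous.aestronglyMeasurable ?_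
      simp only [Function.uncurry_def]
      fun_prop
    · refine Eventually.of_forall fun q => ?_
      simp only [Function.uncurry]
      rw [norm_mul]
      have h4 : ∀ t : ℝ, ‖Complex.exp (Complex.I * t)‖ = 1 := fun t => by
        rw [mul_comm]; exact Complex.norm_exp_ofReal_mul_I t
      have h5 : Complex.I * (q.2 : ℂ) * (y : ℂ) = Complex.I * ((q.2 * y : ℝ) : ℂ) := by
        push_cast; ring
      have h6 : -(Complex.I * (q.2 : ℂ) * (q.1 : ℂ)) = Complex.I * ((-(q.2 * q.1) : ℝ) : ℂ) := by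
        push_cast; ring
      rw [h5, h6, h4, h4]
      norm_num

end Vale.Agent.P367.Lim
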