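import Mathlib

namespace Vale.Agent.P367.Lim

open Finset Filter Topology MeasureTheory ProbabilityTheory

/-- coefficients of a product of linear factors -/
lemma exists_rec {ι : Type*} [DecidableEq ι] (G : Finset ι) (r : ι → ℂ) :
    ∃ e : ℕ → ℂ, e 0 = 1 ∧ (∀ ν, G.card < ν → e ν = 0) ∧
      ∑ ν ∈ range (G.card + 1), ‖e ν‖ ≤ ∏ j ∈ G, (1 + ‖r j‖) ∧
      ∀ z : ℂ, ∑ ν ∈ range (G.card + 1), e ν * z ^ ν = ∏ j ∈ G, (1 - r j * z) := by
  induction G using Finset.induction_on with
  | empty =>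
    refine ⟨fun ν => if ν = 0 then 1 else 0, by simp, ?_, by simp, by simp⟩
    intro ν hν
    simp at hν
    simp [hν.ne']
  | insert i G hi ih =>
    obtain ⟨e, h0, h1, h2, h3⟩ := ih
    let e' : ℕ → ℂ := fun ν => e ν - r i * (if ν = 0 then 0 else e (ν - 1))
    have hsplit : ∀ f : ℕ → ℂ, ∑ ν ∈ range (G.card + 1 + 1), f ν
        = ∑ ν ∈ range (G.card + 1), f ν + f (G.card + 1) := fun f => sum_range_succ _ _
    refine ⟨e', ?_, ?_, ?_, ?_⟩
    · simp [e', h0]
    · intro ν hν
      rw [card_insert_of_notMem hi] at hν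
      have : ν ≠ 0 := by omega
      simp only [e', this, if_false]
      rw [h1 ν (by omega), h1 (ν - 1) (by omega)]
      simp
    · rw [card_insert_of_notMem hi, prod_insert hi]
      calc ∑ ν ∈ range (G.card + 1 + 1), ‖e' ν‖
          ≤ ∑ ν ∈ range (G.card + 1 + 1), (‖e ν‖ + ‖r i‖ * ‖(if ν = 0 then 0 else e (ν - 1))‖) := by
            refine sum_le_sum fun ν _ => ?_
            refine (norm_sub_le _ _).trans ?_
            rw [norm_mul]
        _ = (∑ ν ∈ range (G.card + 1), ‖e ν‖) + ‖r i‖ * ∑ ν ∈ range (G.card + 1), ‖e ν‖ := by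
            rw [sum_add_distrib, ← mul_sum]
            congr 1
            · rw [sum_range_succ, h1 (G.card + 1) (by omega)]
              simp
            · rw [sum_range_succ']
              simp
        _ = (1 + ‖r i‖) * ∑ ν ∈ range (G.card + 1), ‖e ν‖ := by ring
        _ ≤ (1 + ‖r i‖) * ∏ j ∈ G, (1 + ‖r j‖) := by gcongr
    · intro z
      rw [card_insert_of_notMem hi, prod_insert hi, ← h3 z]
      have h5 : ∀ ν, e' ν * z ^ ν = e ν * z ^ ν
          - r i * (if ν = 0 then 0 else e (ν - 1) * z ^ ν) := by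
        intro ν
        simp only [e']
        split_ifs
        · ring
        · ring
      have h6 : ∑ ν ∈ range (G.card + 1 + 1), (if ν = 0 then 0 else e (ν - 1) * z ^ ν)
          = z * ∑ ν ∈ range (G.card + 1), e ν * z ^ ν := by
        rw [sum_range_succ', mul_sum]
        rw [if_pos rfl, add_zero]
        refine sum_congr rfl fun ν _ => ?_
        rw [if_neg (Nat.succ_ne_zero ν), Nat.add_sub_cancel, pow_succ]
        ring
      simp_rw [h5]
      rw [sum_sub_distrib, ← mul_sum, h6, sum_range_succ, h1 (G.card + 1) (by omega)]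
      ring

/-- Turan type extrapolation for exponential sums -/
lemma turan_extrap {ι : Type*} [DecidableEq ι] (G : Finset ι) (C w : ι → ℂ) (a R : ℝ)
    (hw : ∀ j ∈ G, (a * (w j).re : ℝ) ≤ R) (y : ℝ) (M : ℝ) (hM0 : 0 ≤ M)
    (hM : ∀ ν ∈ Ico 1 (G.card + 1), ‖∑ j ∈ G, C j * Complex.exp (w j * ((y - ν * a : ℝ) : ℂ))‖ ≤ M) :
    ‖∑ j ∈ G, C j * Complex.exp (w j * (y : ℂ))‖ ≤ (1 + Real.exp R) ^ G.card * M := by
  obtain ⟨e, h0, h1, h2, h3⟩ := exists_rec G (fun j => Complex.exp (w j * (a : ℂ)))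
  let f : ℕ → ℂ := fun ν => ∑ j ∈ G, C j * Complex.exp (w j * ((y - ν * a : ℝ) : ℂ))
  have hz : ∑ ν ∈ range (G.card + 1), e ν * f ν = 0 := by
    simp only [f, mul_sum]
    rw [sum_comm]
    refine sum_eq_zero fun j hj => ?_
    have h4 : ∀ ν : ℕ, e ν * (C j * Complex.exp (w j * ((y - ν * a : ℝ) : ℂ)))
        = (C j * Complex.exp (w j * y)) * (e ν * Complex.exp (-(w j * a)) ^ ν) := by
      intro ν
      rw [← Complex.exp_nat_mul]
      have : Complex.exp (w j * ((y - ν * a : ℝ) : ℂ))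
          = Complex.exp (w j * y) * Complex.exp ((ν : ℂ) * -(w j * a)) := by
        rw [← Complex.exp_add]
        congr 1
        push_cast
        ring
      rw [this]
      ring
    simp_rw [h4]
    rw [← mul_sum, h3, prod_eq_zero hj, mul_zero]
    rw [← Complex.exp_add]
    simp
  have hf0 : f 0 = ∑ j ∈ G, C j * Complex.exp (w j * (y : ℂ)) := by
    simp [f]
  rw [sum_range_eq_add_Ico _ (by omega), h0, one_mul] at hz
  have hf : ∑ j ∈ G, C j * Complex.exp (w j * (y : ℂ)) = -∑ ν ∈ Ico 1 (G.card + 1), e ν * f ν := by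
    rw [← hf0]
    exact eq_neg_of_add_eq_zero_left hz
  rw [hf, norm_neg]
  calc ‖∑ ν ∈ Ico 1 (G.card + 1), e ν * f ν‖ ≤ ∑ ν ∈ Ico 1 (G.card + 1), ‖e ν‖ * M := by
        refine (norm_sum_le _ _).trans (sum_le_sum fun ν hν => ?_)
        rw [norm_mul]
        exact mul_le_mul_of_nonneg_left (hM ν hν) (norm_nonneg _)
    _ = (∑ ν ∈ Ico 1 (G.card + 1), ‖e ν‖) * M := by rw [sum_mul]
    _ ≤ (∏ j ∈ G, (1 + ‖Complex.exp (w j * (a : ℂ))‖)) * M := by
        refine mul_le_mul_of_nonneg_right (le_trans ?_ h2) hM0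
        rw [sum_range_eq_add_Ico _ (by omega)]
        linarith [norm_nonneg (e 0)]
    _ ≤ (1 + Real.exp R) ^ G.card * M := by
        refine mul_le_mul_of_nonneg_right ?_ hM0
        rw [← prod_const]
        refine prod_le_prod (fun _ _ => by positivity) fun j hj => ?_
        rw [Complex.norm_exp]
        have : (w j * (a : ℂ)).re ≤ R := by
          have := hw j hj
          simp only [Complex.mul_re, Complex.ofReal_re, Complex.ofReal_im, mul_zero, sub_zero]
          linarith
        have := Real.exp_le_exp.2 this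
        linarith

end Vale.Agent.P367.Lim
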